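import Mathlib

/-!
# P205 uniformization: the fixed point in `ℓ²` and rapid decay of its coefficients

For a convolution kernel `e` whose operator on `ℓ²` has norm at most `κ < 1` and a nonexpansive
diagonal map `M` with `M 0 = 0`, the equation `v = b + e * (M v)` has a solution, and it decays
rapidly when `e` and `b` do.  Decay comes from an a priori bound with truncated weights, so no
weighted contraction is needed.
-/

namespace Vale.Agent.P205.Unif

open Filter Topology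

variable {ι : Type*} [AddCommGroup ι]

/-- Convolution of a kernel with a sequence. -/
noncomputable def sconv (e v : ι → ℂ) (k : ι) : ℂ := ∑' j, e (k - j) * v j

lemma summable_shift {d : ι → ℝ} (hd : Summable d) (k : ι) : Summable fun j => d (k - j) :=
  (Equiv.subLeft k).summable_iff.mpr hd

lemma norm_le_of_sq_sum {v : ι → ℂ} {E : ℝ} (hv : ∀ T : Finset ι, ∑ j ∈ T, ‖v j‖ ^ 2 ≤ E ^ 2)
    (hE : 0 ≤ E) (j : ι) : ‖v j‖ ≤ E := by
  have := hv {j}
  simp only [Finset.sum_singleton] at this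
  exact (pow_le_pow_iff_left₀ (norm_nonneg _) hE two_ne_zero).mp this

lemma summable_sconv {e v : ι → ℂ} (he : Summable fun k => ‖e k‖) {E : ℝ} (hv : ∀ j, ‖v j‖ ≤ E)
    (k : ι) : Summable fun j => e (k - j) * v j :=
  Summable.of_norm_bounded ((summable_shift he k).mul_right E) fun j => by
    rw [norm_mul]; exact mul_le_mul_of_nonneg_left (hv j) (norm_nonneg _)

/-- Young's inequality `ℓ¹ * ℓ² ⊂ ℓ²`, on finite sets. -/
lemma young {d : ι → ℝ} (hd : Summable d) (hd0 : ∀ k, 0 ≤ d k) {u : ι → ℝ} (hu0 : ∀ j, 0 ≤ u j)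
    {E : ℝ} (hu : ∀ T : Finset ι, ∑ j ∈ T, u j ^ 2 ≤ E ^ 2) (hE : 0 ≤ E) (T : Finset ι) :
    ∑ k ∈ T, (∑' j, d (k - j) * u j) ^ 2 ≤ ((∑' k, d k) * E) ^ 2 := by
  set D := ∑' k, d k with hD
  have hD0 : 0 ≤ D := tsum_nonneg hd0
  have huE : ∀ j, u j ≤ E := fun j => by
    have := hu {j}
    simp only [Finset.sum_singleton] at this
    exact (pow_le_pow_iff_left₀ (hu0 j) hE two_ne_zero).mp this
  have hs : ∀ k, Summable fun j => d (k - j) * u j := fun k =>
    ((summable_shift hd k).mul_right E).of_nonneg_of_le (fun j => mul_nonneg (hd0 _) (hu0 _))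
      fun j => mul_le_mul_of_nonneg_left (huE j) (hd0 _)
  have hs2 : ∀ k, Summable fun j => d (k - j) * u j ^ 2 := fun k =>
    ((summable_shift hd k).mul_right (E ^ 2)).of_nonneg_of_le
      (fun j => mul_nonneg (hd0 _) (sq_nonneg _))
      fun j => mul_le_mul_of_nonneg_left (pow_le_pow_left₀ (hu0 j) (huE j) 2) (hd0 _)
  have hshiftsum : ∀ k, ∑' j, d (k - j) = D := fun k => (Equiv.subLeft k).tsum_eq d
  have key : ∀ k, (∑' j, d (k - j) * u j) ^ 2 ≤ D * ∑' j, d (k - j) * u j ^ 2 := by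
    intro k
    refine le_of_tendsto ((hs k).hasSum.pow 2) (Eventually.of_forall fun S => ?_)
    refine (Finset.sum_sq_le_sum_mul_sum_of_sq_le_mul S (fun j _ => hd0 (k - j))
      (fun j _ => mul_nonneg (hd0 _) (sq_nonneg (u j))) (fun j _ => le_of_eq (by ring))).trans
      (mul_le_mul ?_ ((hs2 k).sum_le_tsum S fun j _ => mul_nonneg (hd0 _) (sq_nonneg _))
        (Finset.sum_nonneg fun j _ => mul_nonneg (hd0 _) (sq_nonneg _)) hD0)
    exact ((summable_shift hd k).sum_le_tsum S fun j _ => hd0 _).trans (hshiftsum k).le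
  refine (Finset.sum_le_sum fun k _ => key k).trans ?_
  rw [← Finset.mul_sum, ← Summable.tsum_finsetSum fun k _ => hs2 k, mul_pow, sq D, mul_assoc]
  refine mul_le_mul_of_nonneg_left ?_ hD0
  have hu2 : Summable fun j => u j ^ 2 := summable_of_sum_le (fun j => sq_nonneg _) hu
  have hb : ∀ j, ∑ k ∈ T, d (k - j) * u j ^ 2 ≤ D * u j ^ 2 := fun j => by
    rw [← Finset.sum_mul]
    refine mul_le_mul_of_nonneg_right ?_ (sq_nonneg _)
    have := hd.sum_le_tsum (T.map (Equiv.subRight j).toEmbedding) fun x _ => hd0 x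
    simpa [Finset.sum_map] using this
  refine (Summable.tsum_le_tsum hb (summable_sum fun k _ => hs2 k) (hu2.mul_left D)).trans ?_
  rw [tsum_mul_left]
  exact mul_le_mul_of_nonneg_left (hu2.tsum_le_of_sum_le hu) hD0

/-- An operator bound on finitely supported sequences extends to square summable ones. -/
lemma sconv_bound {e : ι → ℂ} (he : Summable fun k => ‖e k‖) {κ : ℝ}
    (hop : ∀ (S T : Finset ι) (v : ι → ℂ),
      ∑ k ∈ T, ‖∑ j ∈ S, e (k - j) * v j‖ ^ 2 ≤ κ ^ 2 * ∑ j ∈ S, ‖v j‖ ^ 2)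
    {v : ι → ℂ} {E : ℝ} (hv : ∀ T : Finset ι, ∑ j ∈ T, ‖v j‖ ^ 2 ≤ E ^ 2) (hE : 0 ≤ E)
    (T : Finset ι) : ∑ k ∈ T, ‖sconv e v k‖ ^ 2 ≤ (κ * E) ^ 2 := by
  refine le_of_tendsto (f := fun S : Finset ι => ∑ k ∈ T, ‖∑ j ∈ S, e (k - j) * v j‖ ^ 2)
    (tendsto_finsetSum T fun k _ => ((summable_sconv he (norm_le_of_sq_sum hv hE) k).hasSum).norm.pow 2)
    (Eventually.of_forall fun S => (hop S T v).trans ?_)
  rw [mul_pow]
  exact mul_le_mul_of_nonneg_left (hv S) (sq_nonneg _)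

lemma lp_sq_sum_le (u : lp (fun _ : ι => ℂ) 2) (T : Finset ι) :
    ∑ j ∈ T, ‖u j‖ ^ 2 ≤ ‖u‖ ^ 2 := by
  have := lp.sum_rpow_le_norm_rpow (p := 2) (by norm_num) u T
  simpa using this

lemma memLp_of_sum_le {f : ι → ℂ} {C : ℝ} (h : ∀ T : Finset ι, ∑ j ∈ T, ‖f j‖ ^ 2 ≤ C) :
    Memℓp f 2 :=
  memℓp_gen' (C := C) fun s => by simpa using h s

lemma lp_norm_le_of_sum {u : lp (fun _ : ι => ℂ) 2} {C : ℝ} (hC : 0 ≤ C)
    (h : ∀ T : Finset ι, ∑ j ∈ T, ‖u j‖ ^ 2 ≤ C ^ 2) : ‖u‖ ≤ C :=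
  lp.norm_le_of_forall_sum_le (by norm_num) hC fun s => by simpa using h s

variable {e : ι → ℂ} {κ : ℝ} {M : ι → ℂ → ℂ}

/-- The fixed point in `ℓ²`. -/
theorem exists_fixedPoint (he : Summable fun k => ‖e k‖) (hκ0 : 0 ≤ κ) (hκ : κ < 1)
    (hop : ∀ (S T : Finset ι) (v : ι → ℂ),
      ∑ k ∈ T, ‖∑ j ∈ S, e (k - j) * v j‖ ^ 2 ≤ κ ^ 2 * ∑ j ∈ S, ‖v j‖ ^ 2)
    (hM : ∀ j z z', ‖M j z - M j z'‖ ≤ ‖z - z'‖) (hM0 : ∀ j, M j 0 = 0)
    {b : ι → ℂ} (hb : Memℓp b 2) :
    ∃ v : lp (fun _ : ι => ℂ) 2, ∀ k, v k = b k + sconv e (fun j => M j (v j)) k := by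
  have hMn : ∀ j z, ‖M j z‖ ≤ ‖z‖ := fun j z => by simpa [hM0] using hM j z 0
  have hMv : ∀ (u : lp (fun _ : ι => ℂ) 2) (T : Finset ι),
      ∑ j ∈ T, ‖M j (u j)‖ ^ 2 ≤ ‖u‖ ^ 2 := fun u T =>
    (Finset.sum_le_sum fun j _ => pow_le_pow_left₀ (norm_nonneg _) (hMn j _) 2).trans
      (lp_sq_sum_le u T)
  have hconv : ∀ u : lp (fun _ : ι => ℂ) 2, Memℓp (sconv e fun j => M j (u j)) 2 := fun u =>
    memLp_of_sum_le fun T => sconv_bound he hop (hMv u) (norm_nonneg u) T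
  let Φ : lp (fun _ : ι => ℂ) 2 → lp (fun _ : ι => ℂ) 2 := fun u =>
    ⟨fun k => b k + sconv e (fun j => M j (u j)) k, hb.add (hconv u)⟩
  have hΦ : ContractingWith ⟨κ, hκ0⟩ Φ := by
    refine ⟨hκ, LipschitzWith.of_dist_le_mul fun u u' => ?_⟩
    rw [dist_eq_norm, dist_eq_norm]
    refine lp_norm_le_of_sum (mul_nonneg hκ0 (norm_nonneg _)) fun T => ?_
    have hd : ∀ S : Finset ι, ∑ j ∈ S, ‖M j (u j) - M j (u' j)‖ ^ 2 ≤ ‖u - u'‖ ^ 2 := fun S =>
      (Finset.sum_le_sum fun j _ => pow_le_pow_left₀ (norm_nonneg _)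
        (by simpa using hM j (u j) (u' j)) 2).trans (lp_sq_sum_le (u - u') S)
    refine le_trans (le_of_eq (Finset.sum_congr rfl fun k _ => ?_))
      (sconv_bound he hop hd (norm_nonneg _) T)
    have e1 : (Φ u - Φ u') k
        = sconv e (fun j => M j (u j)) k - sconv e (fun j => M j (u' j)) k := by
      show (b k + sconv e (fun j => M j (u j)) k) - (b k + sconv e (fun j => M j (u' j)) k) = _
      ring
    rw [e1, sconv, sconv, ← (summable_sconv he (norm_le_of_sq_sum (hMv u) (norm_nonneg _)) k).tsum_sub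
      (summable_sconv he (norm_le_of_sq_sum (hMv u') (norm_nonneg _)) k)]
    simp only [sconv, ← mul_sub]
  refine ⟨ContractingWith.fixedPoint Φ hΦ, fun k => ?_⟩
  conv_lhs => rw [← hΦ.fixedPoint_isFixedPt]

/-- Rapid decay of any square summable solution. -/
theorem decay_of_fixedPoint (he : Summable fun k => ‖e k‖) (hκ0 : 0 ≤ κ) (hκ : κ < 1)
    (hop : ∀ (S T : Finset ι) (v : ι → ℂ),
      ∑ k ∈ T, ‖∑ j ∈ S, e (k - j) * v j‖ ^ 2 ≤ κ ^ 2 * ∑ j ∈ S, ‖v j‖ ^ 2)
    (hMn : ∀ j z, ‖M j z‖ ≤ ‖z‖)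
    (nrm : ι → ℝ) (hn0 : ∀ k, 0 ≤ nrm k) (hnneg : ∀ k, nrm (-k) = nrm k)
    (hnadd : ∀ j k, nrm (j + k) ≤ nrm j + nrm k)
    (hes : ∀ s : ℕ, Summable fun k => (1 + nrm k) ^ s * ‖e k‖)
    {b : ι → ℂ} (hbs : ∀ s : ℕ, Summable fun k => (1 + nrm k) ^ s * ‖b k‖)
    (v : lp (fun _ : ι => ℂ) 2) (hv : ∀ k, v k = b k + sconv e (fun j => M j (v j)) k) (s : ℕ) :
    ∃ C, ∀ k, (1 + nrm k) ^ s * ‖v k‖ ≤ C := by
  -- choose the scale of the weight
  have hlim : Tendsto (fun η : ℝ => ∑' k, ‖e k‖ * ((1 + η * nrm k) ^ s - 1)) (𝓝[>] 0) (𝓝 0) := by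
    have := tendsto_tsum_of_dominated_convergence
      (f := fun (η : ℝ) k => ‖e k‖ * ((1 + η * nrm k) ^ s - 1)) (g := fun _ => (0 : ℝ))
      (𝓕 := 𝓝[>] (0 : ℝ)) (bound := fun k => (1 + nrm k) ^ s * ‖e k‖) (hes s)
      (fun k => by
        refine tendsto_nhdsWithin_of_tendsto_nhds ?_
        have hc : Continuous fun η : ℝ => ‖e k‖ * ((1 + η * nrm k) ^ s - 1) := by fun_prop
        simpa using hc.tendsto 0)
      (by
        filter_upwards [Ioo_mem_nhdsGT (show (0 : ℝ) < 1 by norm_num)] with η hη k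
        have h1 : 1 ≤ (1 + η * nrm k) ^ s :=
          one_le_pow₀ (le_add_of_nonneg_right (mul_nonneg hη.1.le (hn0 k)))
        rw [Real.norm_eq_abs, abs_mul, abs_norm, abs_of_nonneg (by linarith), mul_comm]
        refine mul_le_mul_of_nonneg_right ?_ (norm_nonneg _)
        have : (1 + η * nrm k) ^ s ≤ (1 + nrm k) ^ s :=
          pow_le_pow_left₀ (add_nonneg zero_le_one (mul_nonneg hη.1.le (hn0 k)))
            (add_le_add le_rfl (mul_le_of_le_one_left (hn0 k) hη.2.le)) s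
        linarith)
    simpa using this
  obtain ⟨η, hηe, hη0, hη1⟩ : ∃ η : ℝ,
      ∑' k, ‖e k‖ * ((1 + η * nrm k) ^ s - 1) < (1 - κ) / 2 ∧ 0 < η ∧ η < 1 := by
    have h2 := (hlim.eventually (eventually_lt_nhds (show (0 : ℝ) < (1 - κ) / 2 by linarith))).and
      (Ioo_mem_nhdsGT (show (0 : ℝ) < 1 by norm_num))
    obtain ⟨η, h1, h3⟩ := h2.exists
    exact ⟨η, h1, h3.1, h3.2⟩
  set W : ι → ℝ := fun k => (1 + η * nrm k) ^ s with hWdef
  have hW1 : ∀ k, 1 ≤ W k := fun k =>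
    one_le_pow₀ (le_add_of_nonneg_right (mul_nonneg hη0.le (hn0 k)))
  have hW0 : ∀ k, 0 ≤ W k := fun k => zero_le_one.trans (hW1 k)
  have hWle : ∀ k, W k ≤ (1 + nrm k) ^ s := fun k =>
    pow_le_pow_left₀ (add_nonneg zero_le_one (mul_nonneg hη0.le (hn0 k)))
      (add_le_add le_rfl (mul_le_of_le_one_left (hn0 k) hη1.le)) s
  have hWsub : ∀ k j, W k ≤ W (k - j) * W j := fun k j => by
    have h := hnadd (k - j) j
    rw [sub_add_cancel] at h
    simp only [W, ← mul_pow]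
    refine pow_le_pow_left₀ (add_nonneg zero_le_one (mul_nonneg hη0.le (hn0 k))) ?_ s
    have := mul_le_mul_of_nonneg_left h hη0.le
    nlinarith [mul_nonneg (mul_nonneg hη0.le (hn0 (k - j))) (mul_nonneg hη0.le (hn0 j))]
  have hWsymm : ∀ k j, W (j - k) = W (k - j) := fun k j => by
    simp only [W, ← hnneg (k - j), neg_sub]
  set d : ι → ℝ := fun k => ‖e k‖ * (W k - 1) with hd
  have hd0 : ∀ k, 0 ≤ d k := fun k => mul_nonneg (norm_nonneg _) (by linarith [hW1 k])
  have hds : Summable d := (hes s).of_nonneg_of_le hd0 fun k => by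
    show ‖e k‖ * (W k - 1) ≤ _
    rw [mul_comm ‖e k‖]
    exact mul_le_mul_of_nonneg_right (by linarith [hWle k]) (norm_nonneg _)
  set B : ℝ := ∑' k, (1 + nrm k) ^ s * ‖b k‖
  have hB0 : 0 ≤ B := tsum_nonneg fun k => mul_nonneg (pow_nonneg (by linarith [hn0 k]) _) (norm_nonneg _)
  -- a priori bound for truncated weights
  have key : ∀ N : ℝ, 1 ≤ N → ∀ k, min (W k) N * ‖v k‖ ≤ B / ((1 - κ) / 2) := by
    intro N hN
    set w : ι → ℝ := fun k => min (W k) N with hw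
    have hw0 : ∀ k, 0 ≤ w k := fun k => le_min (hW0 k) (zero_le_one.trans hN)
    have hwsub : ∀ k j, w k ≤ W (k - j) * w j := fun k j => by
      rcases le_total (W j) N with h | h
      · rw [show w j = W j from min_eq_left h]
        exact (min_le_left _ _).trans (hWsub k j)
      · rw [show w j = N from min_eq_right h]
        exact (min_le_right _ _).trans (le_mul_of_one_le_left (zero_le_one.trans hN) (hW1 _))
    have hwdiff : ∀ k j, |w k - w j| ≤ w j * (W (k - j) - 1) := by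
      intro k j
      rw [abs_le]
      have h1 := hwsub k j
      have h2 := hwsub j k
      rw [hWsymm] at h2
      have hw1 := hW1 (k - j)
      constructor
      · by_contra hc
        nlinarith [hw0 k, hw0 j]
      · nlinarith
    let a : lp (fun _ : ι => ℂ) 2 := ⟨fun k => (w k : ℂ) * v k, by
      refine memLp_of_sum_le (C := N ^ 2 * ‖v‖ ^ 2) fun T => ?_
      refine le_trans ?_ (mul_le_mul_of_nonneg_left (lp_sq_sum_le v T) (sq_nonneg N))
      rw [Finset.mul_sum]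
      refine Finset.sum_le_sum fun k _ => ?_
      rw [norm_mul, Complex.norm_real, Real.norm_of_nonneg (hw0 k), mul_pow]
      exact mul_le_mul_of_nonneg_right (pow_le_pow_left₀ (hw0 k) (min_le_right _ _) 2)
        (sq_nonneg _)⟩
    have hanorm : ∀ k, ‖a k‖ = w k * ‖v k‖ := fun k => by
      show ‖(w k : ℂ) * v k‖ = _
      rw [norm_mul, Complex.norm_real, Real.norm_of_nonneg (hw0 k)]
    have hwM : ∀ T : Finset ι, ∑ j ∈ T, ‖(w j : ℂ) * M j (v j)‖ ^ 2 ≤ ‖a‖ ^ 2 := fun T =>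
      (Finset.sum_le_sum fun j _ => pow_le_pow_left₀ (norm_nonneg _) (by
        rw [norm_mul, Complex.norm_real, Real.norm_of_nonneg (hw0 j), hanorm]
        exact mul_le_mul_of_nonneg_left (hMn _ _) (hw0 j)) 2).trans (lp_sq_sum_le a T)
    let P : lp (fun _ : ι => ℂ) 2 := ⟨sconv e fun j => (w j : ℂ) * M j (v j),
      memLp_of_sum_le fun T => sconv_bound he hop hwM (norm_nonneg a) T⟩
    let Q : lp (fun _ : ι => ℂ) 2 := ⟨fun k => (w k : ℂ) * b k, by
      refine memLp_of_sum_le (C := B ^ 2) fun T => ?_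
      refine le_trans (Finset.sum_sq_le_sq_sum_of_nonneg fun k _ => norm_nonneg _) ?_
      refine pow_le_pow_left₀ (Finset.sum_nonneg fun k _ => norm_nonneg _) ?_ 2
      refine (Finset.sum_le_sum fun k _ => ?_).trans
        ((hbs s).sum_le_tsum T fun k _ => mul_nonneg (pow_nonneg (by linarith [hn0 k]) _) (norm_nonneg _))
      rw [norm_mul, Complex.norm_real, Real.norm_of_nonneg (hw0 k)]
      exact mul_le_mul_of_nonneg_right ((min_le_left _ _).trans (hWle k)) (norm_nonneg _)⟩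
    have hQ : ‖Q‖ ≤ B := by
      refine lp_norm_le_of_sum hB0 fun T => ?_
      refine le_trans (Finset.sum_sq_le_sq_sum_of_nonneg fun k _ => norm_nonneg _) ?_
      refine pow_le_pow_left₀ (Finset.sum_nonneg fun k _ => norm_nonneg _) ?_ 2
      refine (Finset.sum_le_sum fun k _ => ?_).trans
        ((hbs s).sum_le_tsum T fun k _ => mul_nonneg (pow_nonneg (by linarith [hn0 k]) _) (norm_nonneg _))
      show ‖(w k : ℂ) * b k‖ ≤ _
      rw [norm_mul, Complex.norm_real, Real.norm_of_nonneg (hw0 k)]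
      exact mul_le_mul_of_nonneg_right ((min_le_left _ _).trans (hWle k)) (norm_nonneg _)
    have hP : ‖P‖ ≤ κ * ‖a‖ :=
      lp_norm_le_of_sum (mul_nonneg hκ0 (norm_nonneg _))
        fun T => sconv_bound he hop hwM (norm_nonneg a) T
    have hR : ‖a - Q - P‖ ≤ (∑' k, d k) * ‖a‖ := by
      refine lp_norm_le_of_sum (mul_nonneg (tsum_nonneg hd0) (norm_nonneg _)) fun T => ?_
      refine le_trans (Finset.sum_le_sum fun k _ => pow_le_pow_left₀ (norm_nonneg _) ?_ 2)
        (young hds hd0 (fun j => norm_nonneg (a j)) (lp_sq_sum_le a) (norm_nonneg a) T)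
      have hs1 := summable_sconv he (v := fun j => M j (v j))
        (E := ‖v‖) (fun j => (hMn _ _).trans (norm_le_of_sq_sum (lp_sq_sum_le v) (norm_nonneg _) j)) k
      have hs2 := summable_sconv he (v := fun j => (w j : ℂ) * M j (v j))
        (E := ‖a‖) (norm_le_of_sq_sum hwM (norm_nonneg _)) k
      have e1 : (a - Q - P) k
          = ∑' j, ((w k : ℂ) - w j) * (e (k - j) * M j (v j)) := by
        show (w k : ℂ) * v k - (w k : ℂ) * b k - sconv e (fun j => (w j : ℂ) * M j (v j)) k = _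
        rw [hv k, mul_add, add_sub_cancel_left, sconv, sconv, ← tsum_mul_left,
          ← (hs1.mul_left (w k : ℂ)).tsum_sub hs2]
        exact tsum_congr fun j => by ring
      rw [e1]
      refine tsum_of_norm_bounded (Summable.hasSum ?_) fun j => ?_
      · exact ((summable_shift hds k).mul_right ‖a‖).of_nonneg_of_le
          (fun j => mul_nonneg (hd0 _) (norm_nonneg _))
          (fun j => mul_le_mul_of_nonneg_left
            (norm_le_of_sq_sum (lp_sq_sum_le a) (norm_nonneg _) j) (hd0 _))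
      · rw [norm_mul, norm_mul, ← Complex.ofReal_sub, Complex.norm_real, Real.norm_eq_abs, hanorm]
        calc |w k - w j| * (‖e (k - j)‖ * ‖M j (v j)‖)
            ≤ (w j * (W (k - j) - 1)) * (‖e (k - j)‖ * ‖v j‖) :=
              mul_le_mul (hwdiff k j) (mul_le_mul_of_nonneg_left (hMn _ _) (norm_nonneg _))
                (by positivity) (mul_nonneg (hw0 j) (by linarith [hW1 (k - j)]))
          _ = d (k - j) * (w j * ‖v j‖) := by simp only [hd]; ring
    have htot : ‖a‖ ≤ B + κ * ‖a‖ + (1 - κ) / 2 * ‖a‖ := by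
      calc ‖a‖ = ‖Q + P + (a - Q - P)‖ := by rw [show Q + P + (a - Q - P) = a by abel]
        _ ≤ ‖Q‖ + ‖P‖ + ‖a - Q - P‖ := norm_add₃_le
        _ ≤ _ := add_le_add (add_le_add hQ hP)
          (hR.trans (mul_le_mul_of_nonneg_right hηe.le (norm_nonneg _)))
    intro k
    have hk := norm_le_of_sq_sum (lp_sq_sum_le a) (norm_nonneg a) k
    rw [hanorm] at hk
    refine hk.trans ?_
    rw [le_div_iff₀ (by linarith)]
    nlinarith
  refine ⟨(1 / η) ^ s * (B / ((1 - κ) / 2)), fun k => ?_⟩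
  have h := key (W k) (hW1 k) k
  rw [min_self] at h
  have h2 : (1 + nrm k) ^ s ≤ (1 / η) ^ s * W k := by
    simp only [W, ← mul_pow]
    refine pow_le_pow_left₀ (by linarith [hn0 k]) ?_ s
    rw [div_mul_eq_mul_div, one_mul, le_div_iff₀ hη0]
    nlinarith [hn0 k]
  calc (1 + nrm k) ^ s * ‖v k‖ ≤ (1 / η) ^ s * W k * ‖v k‖ :=
      mul_le_mul_of_nonneg_right h2 (norm_nonneg _)
    _ ≤ _ := by rw [mul_assoc]; exact mul_le_mul_of_nonneg_left h (by positivity)

end Vale.Agent.P205.Unif
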