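import Mathlib
import Vale.Agent.P205.Unif.FixedPoint

/-!
# P205 uniformization: rapidly convergent Fourier series on `ℝ × ℝ`

`ser c p = ∑ c k e^{2 π i ⟨k, p⟩}`, with the complex derivatives given by the multipliers
`zMul k` (for `∂`) and `zbarMul k` (for `∂̄`).
-/

namespace Vale.Agent.P205.Unif

open Complex
open scoped ContDiff

/-- Frequencies. -/
abbrev Freq := Fin 2 → ℤ

/-- The size of a frequency. -/
def fnrm (k : Freq) : ℝ := |(k 0 : ℝ)| + |(k 1 : ℝ)|

lemma fnrm_nonneg (k : Freq) : 0 ≤ fnrm k := add_nonneg (abs_nonneg _) (abs_nonneg _)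

lemma fnrm_neg (k : Freq) : fnrm (-k) = fnrm k := by simp [fnrm]

lemma fnrm_add (j k : Freq) : fnrm (j + k) ≤ fnrm j + fnrm k := by
  have h0 := abs_add_le (j 0 : ℝ) (k 0)
  have h1 := abs_add_le (j 1 : ℝ) (k 1)
  simp only [fnrm, Pi.add_apply, Int.cast_add]
  linarith

lemma one_le_fnrm_pow (k : Freq) (s : ℕ) : 1 ≤ (1 + fnrm k) ^ s :=
  one_le_pow₀ (le_add_of_nonneg_right (fnrm_nonneg k))

/-- Rapid decrease. -/
def Rapid (c : Freq → ℂ) : Prop := ∀ s : ℕ, Summable fun k => (1 + fnrm k) ^ s * ‖c k‖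

lemma Rapid.summable_norm {c : Freq → ℂ} (hc : Rapid c) : Summable fun k => ‖c k‖ := by
  simpa using hc 0

lemma Rapid.of_le {c c' : Freq → ℂ} (hc : Rapid c) {C : ℝ} {m : ℕ}
    (h : ∀ k, ‖c' k‖ ≤ C * (1 + fnrm k) ^ m * ‖c k‖) : Rapid c' := fun s =>
  ((hc (s + m)).mul_left C).of_nonneg_of_le
    (fun k => mul_nonneg (pow_nonneg (by linarith [fnrm_nonneg k]) _) (norm_nonneg _))
    fun k => (mul_le_mul_of_nonneg_left (h k) (zero_le_one.trans (one_le_fnrm_pow k s))).trans
      (le_of_eq (by rw [pow_add]; ring))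

lemma Rapid.add {c c' : Freq → ℂ} (hc : Rapid c) (hc' : Rapid c') : Rapid (c + c') := fun s =>
  ((hc s).add (hc' s)).of_nonneg_of_le
    (fun k => mul_nonneg (pow_nonneg (by linarith [fnrm_nonneg k]) _) (norm_nonneg _))
    fun k => by
      rw [← mul_add]
      exact mul_le_mul_of_nonneg_left (norm_add_le _ _) (zero_le_one.trans (one_le_fnrm_pow k s))

lemma summable_weight : Summable fun k : Freq => ((1 + fnrm k) ^ 4)⁻¹ := by
  have h1 : Summable fun n : ℤ => ((1 + |(n : ℝ)|) ^ 2)⁻¹ := by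
    have h := (Real.summable_one_div_int_pow.mpr (show 1 < 2 by norm_num)).add
      (summable_of_ne_finset_zero (s := {(0 : ℤ)}) (f := fun n : ℤ => if n = 0 then (1 : ℝ) else 0)
        fun b hb => if_neg (by simpa using hb))
    refine h.of_nonneg_of_le (fun n => by positivity) fun n => ?_
    by_cases hn : n = 0
    · simp [hn]
    · rw [if_neg hn, add_zero, one_div, ← sq_abs (n : ℝ)]
      exact inv_anti₀ (by positivity) (pow_le_pow_left₀ (abs_nonneg _) (by linarith) 2)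
  have h2 : Summable fun p : ℤ × ℤ => ((1 + |(p.1 : ℝ)|) ^ 2)⁻¹ * ((1 + |(p.2 : ℝ)|) ^ 2)⁻¹ :=
    h1.mul_of_nonneg h1 (fun n => by positivity) (fun n => by positivity)
  refine ((finTwoArrowEquiv ℤ).summable_iff.mpr h2).of_nonneg_of_le
    (fun k => inv_nonneg.mpr (pow_nonneg (by linarith [fnrm_nonneg k]) _)) fun k => ?_
  have e : ((finTwoArrowEquiv ℤ) k) = (k 0, k 1) := rfl
  simp only [Function.comp_apply, e]
  rw [← mul_inv, ← mul_pow]
  refine inv_anti₀ (by positivity) ?_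
  rw [show (1 + fnrm k) ^ 4 = ((1 + fnrm k) * (1 + fnrm k)) ^ 2 by ring]
  refine pow_le_pow_left₀ (by positivity) (mul_le_mul ?_ ?_ (by positivity) ?_) 2 <;>
    simp only [fnrm] <;> linarith [abs_nonneg (k 0 : ℝ), abs_nonneg (k 1 : ℝ)]

/-- Rapid decrease from pointwise bounds. -/
lemma rapid_of_bound {c : Freq → ℂ} (h : ∀ s : ℕ, ∃ C, ∀ k, (1 + fnrm k) ^ s * ‖c k‖ ≤ C) :
    Rapid c := fun s => by
  obtain ⟨C, hC⟩ := h (s + 4)
  refine (summable_weight.mul_left C).of_nonneg_of_le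
    (fun k => mul_nonneg (pow_nonneg (by linarith [fnrm_nonneg k]) _) (norm_nonneg _)) fun k => ?_
  have hp : 0 < (1 + fnrm k) ^ 4 := pow_pos (by linarith [fnrm_nonneg k]) _
  rw [← div_eq_mul_inv, le_div_iff₀ hp]
  refine le_trans (le_of_eq ?_) (hC k)
  rw [pow_add]; ring

/-- The complex number of a vector. -/
def cx (v : ℝ × ℝ) : ℂ := (v.1 : ℂ) + (v.2 : ℂ) * I

/-- The pairing `2 π ⟨k, p⟩ i` as a linear map. -/
noncomputable def phaseL (k : Freq) : ℝ × ℝ →L[ℝ] ℂ :=
  (2 * Real.pi * I * (k 0 : ℂ)) • (ofRealCLM.comp (ContinuousLinearMap.fst ℝ ℝ ℝ)) +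
    (2 * Real.pi * I * (k 1 : ℂ)) • (ofRealCLM.comp (ContinuousLinearMap.snd ℝ ℝ ℝ))

lemma phaseL_apply (k : Freq) (p : ℝ × ℝ) :
    phaseL k p = 2 * Real.pi * I * ((k 0 : ℂ) * p.1 + (k 1 : ℂ) * p.2) := by
  simp [phaseL]; ring

/-- The character `p ↦ e^{2 π i ⟨k, p⟩}`. -/
noncomputable def chr (k : Freq) (p : ℝ × ℝ) : ℂ := exp (phaseL k p)

lemma norm_chr (k : Freq) (p : ℝ × ℝ) : ‖chr k p‖ = 1 := by
  rw [chr, Complex.norm_exp, phaseL_apply]
  simp

lemma chr_add (j k : Freq) (p : ℝ × ℝ) : chr (j + k) p = chr j p * chr k p := by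
  rw [chr, chr, chr, ← exp_add, phaseL_apply, phaseL_apply, phaseL_apply]
  simp only [Pi.add_apply, Int.cast_add]; ring_nf

lemma chr_periodic (k : Freq) (p : ℝ × ℝ) (m n : ℤ) :
    chr k (p + ((m : ℝ), (n : ℝ))) = chr k p := by
  rw [chr, chr, map_add, exp_add, phaseL_apply k ((m : ℝ), (n : ℝ))]
  have h := Complex.exp_int_mul_two_pi_mul_I (k 0 * m + k 1 * n)
  push_cast at h ⊢
  rw [show 2 * (Real.pi : ℂ) * I * (k 0 * m + k 1 * n) = (k 0 * m + k 1 * n) * (2 * Real.pi * I) by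
    ring, h, mul_one]

/-- The series of a coefficient family. -/
noncomputable def ser (c : Freq → ℂ) (p : ℝ × ℝ) : ℂ := ∑' k, c k * chr k p

lemma summable_ser {c : Freq → ℂ} (hc : Summable fun k => ‖c k‖) (p : ℝ × ℝ) :
    Summable fun k => c k * chr k p :=
  Summable.of_norm_bounded hc fun k => by rw [norm_mul, norm_chr, mul_one]

lemma ser_periodic (c : Freq → ℂ) (p : ℝ × ℝ) (m n : ℤ) :
    ser c (p + ((m : ℝ), (n : ℝ))) = ser c p := by
  simp only [ser, chr_periodic]

lemma ser_add {c c' : Freq → ℂ} (hc : Summable fun k => ‖c k‖) (hc' : Summable fun k => ‖c' k‖)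
    (p : ℝ × ℝ) : ser (c + c') p = ser c p + ser c' p := by
  simp only [ser, Pi.add_apply, add_mul]
  exact (summable_ser hc p).tsum_add (summable_ser hc' p)

/-- The multiplier of `∂ = (∂x - i ∂y)/2`. -/
noncomputable def zMul (k : Freq) : ℂ := Real.pi * I * ((k 0 : ℂ) - (k 1 : ℂ) * I)

/-- The multiplier of `∂̄ = (∂x + i ∂y)/2`. -/
noncomputable def zbarMul (k : Freq) : ℂ := Real.pi * I * ((k 0 : ℂ) + (k 1 : ℂ) * I)

lemma norm_zMul_le (k : Freq) : ‖zMul k‖ ≤ Real.pi * (1 + fnrm k) ^ 1 := by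
  rw [zMul, norm_mul, norm_mul, Complex.norm_real, Real.norm_of_nonneg Real.pi_pos.le,
    Complex.norm_I, mul_one, pow_one]
  refine mul_le_mul_of_nonneg_left ((norm_sub_le _ _).trans ?_) Real.pi_pos.le
  rw [norm_mul, Complex.norm_I, mul_one, Complex.norm_intCast, Complex.norm_intCast, fnrm]
  linarith

lemma norm_zbarMul_le (k : Freq) : ‖zbarMul k‖ ≤ Real.pi * (1 + fnrm k) ^ 1 := by
  rw [zbarMul, norm_mul, norm_mul, Complex.norm_real, Real.norm_of_nonneg Real.pi_pos.le,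
    Complex.norm_I, mul_one, pow_one]
  refine mul_le_mul_of_nonneg_left ((norm_add_le _ _).trans ?_) Real.pi_pos.le
  rw [norm_mul, Complex.norm_I, mul_one, Complex.norm_intCast, Complex.norm_intCast, fnrm]
  linarith

lemma Rapid.zMul {c : Freq → ℂ} (hc : Rapid c) : Rapid fun k => zMul k * c k :=
  hc.of_le fun k => by
    rw [norm_mul]; exact mul_le_mul_of_nonneg_right (norm_zMul_le k) (norm_nonneg _)

lemma Rapid.zbarMul {c : Freq → ℂ} (hc : Rapid c) : Rapid fun k => zbarMul k * c k :=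
  hc.of_le fun k => by
    rw [norm_mul]; exact mul_le_mul_of_nonneg_right (norm_zbarMul_le k) (norm_nonneg _)

/-- `v ↦ a v + b v̄` as a real-linear map. -/
noncomputable def dzL (a b : ℂ) : ℝ × ℝ →L[ℝ] ℂ :=
  (a + b) • (ofRealCLM.comp (ContinuousLinearMap.fst ℝ ℝ ℝ)) +
    (I * (a - b)) • (ofRealCLM.comp (ContinuousLinearMap.snd ℝ ℝ ℝ))

lemma dzL_apply (a b : ℂ) (v : ℝ × ℝ) :
    dzL a b v = a * cx v + b * (starRingEnd ℂ) (cx v) := by
  simp [dzL, cx]; ring

lemma phaseL_eq (k : Freq) : phaseL k = dzL (zMul k) (zbarMul k) := by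
  refine ContinuousLinearMap.ext fun v => ?_
  rw [phaseL_apply, dzL_apply]
  simp only [zMul, zbarMul, cx, map_add, map_mul, conj_ofReal, conj_I]
  linear_combination (2 * (Real.pi : ℂ) * I * (k 1 : ℂ) * (v.2 : ℂ)) * I_sq

lemma norm_phaseL_le (k : Freq) : ‖phaseL k‖ ≤ 2 * Real.pi * (1 + fnrm k) ^ 1 := by
  refine ContinuousLinearMap.opNorm_le_bound _
    (mul_nonneg (mul_nonneg zero_le_two Real.pi_pos.le) (zero_le_one.trans (one_le_fnrm_pow k 1)))
    fun v => ?_
  rw [phaseL_apply, norm_mul, norm_mul, norm_mul, Complex.norm_I, Complex.norm_real,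
    Real.norm_of_nonneg Real.pi_pos.le, mul_one, Complex.norm_ofNat, pow_one]
  rw [mul_assoc (2 * Real.pi) (1 + fnrm k) ‖v‖]
  refine mul_le_mul_of_nonneg_left ((norm_add_le _ _).trans ?_)
    (mul_nonneg zero_le_two Real.pi_pos.le)
  rw [norm_mul, norm_mul, Complex.norm_intCast, Complex.norm_intCast, Complex.norm_real,
    Complex.norm_real, add_mul, one_mul, fnrm, add_mul]
  have h1 : |(k 0 : ℝ)| * ‖v.1‖ ≤ |(k 0 : ℝ)| * ‖v‖ :=
    mul_le_mul_of_nonneg_left (norm_fst_le v) (abs_nonneg _)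
  have h2 : |(k 1 : ℝ)| * ‖v.2‖ ≤ |(k 1 : ℝ)| * ‖v‖ :=
    mul_le_mul_of_nonneg_left (norm_snd_le v) (abs_nonneg _)
  linarith [norm_nonneg v]

lemma hasFDerivAt_chr (k : Freq) (p : ℝ × ℝ) :
    HasFDerivAt (fun q => chr k q) (chr k p • phaseL k) p :=
  (phaseL k).hasFDerivAt.cexp

/-- The derivative of a series. -/
lemma hasFDerivAt_ser {c : Freq → ℂ} (hc : Rapid c) (p : ℝ × ℝ) :
    HasFDerivAt (ser c)
      (dzL (ser (fun k => zMul k * c k) p) (ser (fun k => zbarMul k * c k) p)) p := by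
  have hu : Summable fun k => 2 * Real.pi * ((1 + fnrm k) ^ 1 * ‖c k‖) :=
    (hc 1).mul_left _
  have h := hasFDerivAt_tsum hu (f := fun k q => c k * chr k q)
    (f' := fun k q => c k • (chr k q • phaseL k))
    (fun k q => (hasFDerivAt_chr k q).const_mul (c k))
    (fun k q => by
      rw [norm_smul, norm_smul, norm_chr, one_mul]
      refine (mul_le_mul_of_nonneg_left (norm_phaseL_le k) (norm_nonneg _)).trans (le_of_eq ?_)
      ring)
    (x₀ := p) (summable_ser hc.summable_norm p) p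
  refine h.congr_fderiv ?_
  have hs : Summable fun k => c k • (chr k p • phaseL k) :=
    Summable.of_norm_bounded hu fun k => by
      rw [norm_smul, norm_smul, norm_chr, one_mul]
      refine (mul_le_mul_of_nonneg_left (norm_phaseL_le k) (norm_nonneg _)).trans (le_of_eq ?_)
      ring
  refine ContinuousLinearMap.ext fun v => ?_
  change (ContinuousLinearMap.apply ℝ ℂ v) (∑' k, c k • (chr k p • phaseL k)) = _
  rw [ContinuousLinearMap.map_tsum _ hs]
  have h1 := summable_ser hc.zMul.summable_norm p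
  have h2 := summable_ser hc.zbarMul.summable_norm p
  rw [dzL_apply, ser, ser, ← tsum_mul_right, ← tsum_mul_right,
    ← (h1.mul_right _).tsum_add (h2.mul_right _)]
  refine tsum_congr fun k => ?_
  simp only [ContinuousLinearMap.apply_apply, ContinuousLinearMap.smul_apply, phaseL_eq, dzL_apply,
    smul_eq_mul]
  ring

lemma fderiv_ser {c : Freq → ℂ} (hc : Rapid c) (p : ℝ × ℝ) :
    fderiv ℝ (ser c) p =
      dzL (ser (fun k => zMul k * c k) p) (ser (fun k => zbarMul k * c k) p) :=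
  (hasFDerivAt_ser hc p).fderiv

lemma contDiff_dzL {f g : ℝ × ℝ → ℂ} {n : WithTop ℕ∞} (hf : ContDiff ℝ n f) (hg : ContDiff ℝ n g) :
    ContDiff ℝ n fun p => dzL (f p) (g p) := by
  unfold dzL
  exact ((hf.add hg).smul contDiff_const).add
    ((contDiff_const.mul (hf.sub hg)).smul contDiff_const)

/-- A rapidly decreasing series is smooth. -/
theorem contDiff_ser {c : Freq → ℂ} (hc : Rapid c) : ContDiff ℝ ∞ (ser c) := by
  refine contDiff_infty.mpr fun n => ?_
  induction n generalizing c with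
  | zero =>
    exact contDiff_zero.mpr (Differentiable.continuous fun p => (hasFDerivAt_ser hc p).differentiableAt)
  | succ n ih =>
    rw [Nat.cast_succ, contDiff_succ_iff_fderiv]
    refine ⟨fun p => (hasFDerivAt_ser hc p).differentiableAt, fun h => absurd h (by simp), ?_⟩
    simp only [funext (fderiv_ser hc)]
    exact contDiff_dzL (ih hc.zMul) (ih hc.zbarMul)

/-- The series of a convolution is the product. -/
theorem ser_sconv {e c : Freq → ℂ} (he : Summable fun k => ‖e k‖) (hc : Summable fun k => ‖c k‖)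
    (p : ℝ × ℝ) : ser (sconv e c) p = ser e p * ser c p := by
  have h1 : Summable fun k => ‖e k * chr k p‖ := by simpa [norm_chr] using he
  have h2 : Summable fun k => ‖c k * chr k p‖ := by simpa [norm_chr] using hc
  have hp := summable_mul_of_summable_norm h1 h2
  rw [ser, ser, ser, tsum_mul_tsum_of_summable_norm h1 h2]
  let φ : Freq × Freq ≃ Freq × Freq :=
    { toFun := fun q => (q.1 - q.2, q.2)
      invFun := fun q => (q.1 + q.2, q.2)
      left_inv := fun q => by simp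
      right_inv := fun q => by simp }
  have hp' : Summable fun q : Freq × Freq =>
      (e (q.1 - q.2) * chr (q.1 - q.2) p) * (c q.2 * chr q.2 p) := (φ.summable_iff.mpr hp)
  rw [← φ.tsum_eq (fun z : Freq × Freq => (e z.1 * chr z.1 p) * (c z.2 * chr z.2 p))]
  show ∑' k, sconv e c k * chr k p
    = ∑' q : Freq × Freq, (e (q.1 - q.2) * chr (q.1 - q.2) p) * (c q.2 * chr q.2 p)
  rw [hp'.tsum_prod]
  refine tsum_congr fun k => ?_
  rw [sconv, ← tsum_mul_right]
  refine tsum_congr fun j => ?_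
  conv_lhs => rw [show chr k p = chr (k - j) p * chr j p by rw [← chr_add, sub_add_cancel]]
  ring

end Vale.Agent.P205.Unif
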