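import Mathlib
import Vale.Agent.P205.Defs
import Vale.Agent.P205.Unif.Series

/-!
# P205 uniformization: the periodic Beltrami equation

`Ω = 1 + ser P` solves `∂̄Ω = ∂(μ Ω)`.  A second fixed point gives `H` (periodic plus an imaginary
linear function) with `∂̄H - μ ∂H = ∂μ`.  Then `u = Ω exp (-H)` has periodic modulus and satisfies
`∂̄u = μ ∂u`; the mean zero principle makes it constant, so `Ω` has no zero.
-/

namespace Vale.Agent.P205.Unif

open Complex
open scoped ContDiff ComplexConjugate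

/-- `∂` from a differential. -/
noncomputable def zPart (L : ℝ × ℝ →L[ℝ] ℂ) : ℂ := (L (1, 0) - I * L (0, 1)) / 2

/-- `∂̄` from a differential. -/
noncomputable def zbarPart (L : ℝ × ℝ →L[ℝ] ℂ) : ℂ := (L (1, 0) + I * L (0, 1)) / 2

lemma zPart_dzL (a b : ℂ) : zPart (dzL a b) = a := by
  simp only [zPart, dzL_apply, cx]
  simp
  linear_combination ((b - a) / 2) * I_sq

lemma zbarPart_dzL (a b : ℂ) : zbarPart (dzL a b) = b := by
  simp only [zbarPart, dzL_apply, cx]
  simp
  linear_combination ((a - b) / 2) * I_sq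

lemma dzL_parts (L : ℝ × ℝ →L[ℝ] ℂ) : dzL (zPart L) (zbarPart L) = L := by
  refine ContinuousLinearMap.ext fun v => ?_
  rw [show v = v.1 • ((1, 0) : ℝ × ℝ) + v.2 • ((0, 1) : ℝ × ℝ) by
    ext <;> simp, map_add, map_add, map_smul, map_smul, map_smul, map_smul]
  simp only [dzL_apply, zPart, zbarPart, cx, real_smul]
  simp
  linear_combination (-(v.2 : ℂ) * L (0, 1)) * I_sq

lemma zPart_smul (r : ℂ) (L : ℝ × ℝ →L[ℝ] ℂ) : zPart (r • L) = r * zPart L := by
  simp [zPart]; ring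

lemma zbarPart_smul (r : ℂ) (L : ℝ × ℝ →L[ℝ] ℂ) : zbarPart (r • L) = r * zbarPart L := by
  simp [zbarPart]; ring

lemma zPart_add (L L' : ℝ × ℝ →L[ℝ] ℂ) : zPart (L + L') = zPart L + zPart L' := by
  simp [zPart]; ring

lemma zbarPart_add (L L' : ℝ × ℝ →L[ℝ] ℂ) : zbarPart (L + L') = zbarPart L + zbarPart L' := by
  simp [zbarPart]; ring

/-- The unit-modulus multiplier, zero at the origin. -/
noncomputable def beurling (k : Freq) (z : ℂ) : ℂ := if k = 0 then 0 else zMul k / zbarMul k * z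

/-- The same multiplier, extended by `z ↦ - conj z` at the origin. -/
noncomputable def beurling' (k : Freq) (z : ℂ) : ℂ :=
  if k = 0 then -conj z else zMul k / zbarMul k * z

lemma norm_zMul_eq (k : Freq) : ‖zMul k‖ = ‖zbarMul k‖ := by
  have h : ‖(k 0 : ℂ) - (k 1 : ℂ) * I‖ = ‖(k 0 : ℂ) + (k 1 : ℂ) * I‖ := by
    rw [Complex.norm_def, Complex.norm_def]
    simp [Complex.normSq_apply]
  rw [zMul, zbarMul, norm_mul, norm_mul ((Real.pi : ℂ) * I), h]

lemma one_le_norm_zbarMul {k : Freq} (hk : k ≠ 0) : 1 ≤ ‖zbarMul k‖ := by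
  rw [zbarMul, norm_mul, norm_mul, Complex.norm_real, Real.norm_of_nonneg Real.pi_pos.le,
    Complex.norm_I, mul_one]
  have h : (1 : ℝ) ≤ ‖(k 0 : ℂ) + (k 1 : ℂ) * I‖ := by
    by_cases h0 : k 0 = 0
    · have h1 : k 1 ≠ 0 := fun h1 => hk (funext fun i => by fin_cases i <;> assumption)
      rw [h0]; simpa [Complex.norm_intCast] using! (show (1 : ℝ) ≤ |(k 1 : ℝ)| by exact_mod_cast Int.one_le_abs h1)
    · refine le_trans ?_ (Complex.abs_re_le_norm _)
      simp
      exact_mod_cast Int.one_le_abs h0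
  nlinarith [Real.pi_gt_three]

lemma zbarMul_ne_zero {k : Freq} (hk : k ≠ 0) : zbarMul k ≠ 0 := fun h => by
  have := one_le_norm_zbarMul hk
  rw [h, norm_zero] at this; linarith

lemma norm_ratio {k : Freq} (hk : k ≠ 0) : ‖zMul k / zbarMul k‖ = 1 := by
  rw [norm_div, norm_zMul_eq, div_self]
  exact (norm_ne_zero_iff.mpr (zbarMul_ne_zero hk))

lemma beurling_lip (k : Freq) (z z' : ℂ) : ‖beurling k z - beurling k z'‖ ≤ ‖z - z'‖ := by
  unfold beurling
  split_ifs with h
  · simp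
  · rw [← mul_sub, norm_mul, norm_ratio h, one_mul]

lemma beurling'_lip (k : Freq) (z z' : ℂ) : ‖beurling' k z - beurling' k z'‖ ≤ ‖z - z'‖ := by
  unfold beurling'
  split_ifs with h
  · rw [← neg_sub_neg, ← norm_neg (z - z'), ← Complex.norm_conj (-(z - z'))]
    simp [neg_add_eq_sub]
  · rw [← mul_sub, norm_mul, norm_ratio h, one_mul]

lemma beurling_zero (k : Freq) : beurling k 0 = 0 := by simp [beurling]

lemma beurling'_zero (k : Freq) : beurling' k 0 = 0 := by simp [beurling']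

/-- Divide by `zbarMul` away from the origin. -/
noncomputable def primitive (c : Freq → ℂ) (k : Freq) : ℂ := if k = 0 then 0 else c k / zbarMul k

lemma Rapid.primitive {c : Freq → ℂ} (hc : Rapid c) : Rapid (primitive c) :=
  hc.of_le (C := 1) (m := 0) fun k => by
    unfold Unif.primitive
    split_ifs with h
    · simp
    · rw [norm_div, pow_zero, one_mul, one_mul]
      exact div_le_self (norm_nonneg _) (one_le_norm_zbarMul h)

/-- The coefficient family of a constant. -/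
def delta (a : ℂ) (k : Freq) : ℂ := if k = 0 then a else 0

lemma rapid_delta (a : ℂ) : Rapid (delta a) := fun s =>
  summable_of_ne_finset_zero (s := {(0 : Freq)}) fun b hb => by
    simp [delta, show b ≠ 0 from by simpa using hb]

lemma ser_delta (a : ℂ) (p : ℝ × ℝ) : ser (delta a) p = a := by
  rw [ser, tsum_eq_single (0 : Freq) fun b hb => by simp [delta, hb]]
  simp [delta, chr, phaseL_apply]

lemma zbar_primitive (c : Freq → ℂ) :
    (fun k => zbarMul k * primitive c k) = c + delta (-c 0) := by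
  funext k
  by_cases h : k = 0
  · subst h; simp [primitive, delta]
  · simp [primitive, delta, h, mul_div_cancel₀ _ (zbarMul_ne_zero h)]

lemma z_primitive (c : Freq → ℂ) :
    (fun k => zMul k * primitive c k) = fun k => beurling k (c k) := by
  funext k
  by_cases h : k = 0
  · subst h; simp [primitive, beurling]
  · simp [primitive, beurling, h]; ring

/-- The real-linear function `v ↦ a (cx v) + b conj (cx v)` plus a series. -/
lemma hasFDerivAt_affine_ser {c : Freq → ℂ} (hc : Rapid c) (a b : ℂ) (p : ℝ × ℝ) :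
    HasFDerivAt (fun q => dzL a b q + ser c q)
      (dzL (a + ser (fun k => zMul k * c k) p) (b + ser (fun k => zbarMul k * c k) p)) p := by
  refine ((dzL a b).hasFDerivAt.add (hasFDerivAt_ser hc p)).congr_fderiv ?_
  refine ContinuousLinearMap.ext fun v => ?_
  simp only [ContinuousLinearMap.add_apply, dzL_apply]; ring

lemma contDiff_zPart {f : ℝ × ℝ → ℝ × ℝ →L[ℝ] ℂ} {n : WithTop ℕ∞} (hf : ContDiff ℝ n f) :
    ContDiff ℝ n fun p => zPart (f p) := by
  unfold zPart
  exact ((hf.clm_apply contDiff_const).sub (contDiff_const.mul (hf.clm_apply contDiff_const))).div_const _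

lemma contDiff_zbarPart {f : ℝ × ℝ → ℝ × ℝ →L[ℝ] ℂ} {n : WithTop ℕ∞} (hf : ContDiff ℝ n f) :
    ContDiff ℝ n fun p => zbarPart (f p) := by
  unfold zbarPart
  exact ((hf.clm_apply contDiff_const).add (contDiff_const.mul (hf.clm_apply contDiff_const))).div_const _

/-- The mean zero principle for `∂̄A - ∂B`. -/
def MeanPrinciple : Prop :=
  ∀ A B : ℝ × ℝ → ℂ, ContDiff ℝ ∞ A → ContDiff ℝ ∞ B →
    (∀ p (m n : ℤ), A (p + ((m : ℝ), (n : ℝ))) = A p) →
    (∀ p (m n : ℤ), B (p + ((m : ℝ), (n : ℝ))) = B p) →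
    (∀ p, ∃ r : ℝ, 0 ≤ r ∧ zbarPart (fderiv ℝ A p) - zPart (fderiv ℝ B p) = r) →
    ∀ p, zbarPart (fderiv ℝ A p) - zPart (fderiv ℝ B p) = 0

/-- The Jacobian identity `∂̄(ū ∂u) - ∂(ū ∂̄u) = |∂u|² - |∂̄u|²`. -/
lemma jacobian_identity {u : ℝ × ℝ → ℂ} (hu : ContDiff ℝ ∞ u) (p : ℝ × ℝ) :
    zbarPart (fderiv ℝ (fun q => conj (u q) * zPart (fderiv ℝ u q)) p)
      - zPart (fderiv ℝ (fun q => conj (u q) * zbarPart (fderiv ℝ u q)) p)
      = ((‖zPart (fderiv ℝ u p)‖ ^ 2 - ‖zbarPart (fderiv ℝ u p)‖ ^ 2 : ℝ) : ℂ) := by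
  have hd : Differentiable ℝ u := hu.differentiable (by simp)
  have hdd : Differentiable ℝ (fderiv ℝ u) :=
    (hu.fderiv_right (m := ∞) (by simp)).differentiable (by simp)
  have hsymm := (hu.contDiffAt (x := p)).isSymmSndFDerivAt (minSmoothness_of_isRCLikeNormedField.trans_le (WithTop.coe_le_coe.mpr le_top)) (1, 0) (0, 1)
  have hconj : HasFDerivAt (fun q => conj (u q))
      ((conjCLE : ℂ →L[ℝ] ℂ).comp (fderiv ℝ u p)) p :=
    ((conjCLE : ℂ →L[ℝ] ℂ).hasFDerivAt).comp p (hd p).hasFDerivAt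
  have happ : ∀ v : ℝ × ℝ, HasFDerivAt (fun q => fderiv ℝ u q v)
      ((ContinuousLinearMap.apply ℝ ℂ v).comp (fderiv ℝ (fderiv ℝ u) p)) p := fun v =>
    (ContinuousLinearMap.apply ℝ ℂ v).hasFDerivAt.comp p (hdd p).hasFDerivAt
  have hz : HasFDerivAt (fun q => zPart (fderiv ℝ u q))
      ((2 : ℂ)⁻¹ • ((ContinuousLinearMap.apply ℝ ℂ (1, 0)).comp (fderiv ℝ (fderiv ℝ u) p)
        - I • (ContinuousLinearMap.apply ℝ ℂ (0, 1)).comp (fderiv ℝ (fderiv ℝ u) p))) p := by
    simp only [zPart, div_eq_inv_mul]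
    exact ((happ (1, 0)).sub ((happ (0, 1)).const_mul I)).const_mul _
  have hzb : HasFDerivAt (fun q => zbarPart (fderiv ℝ u q))
      ((2 : ℂ)⁻¹ • ((ContinuousLinearMap.apply ℝ ℂ (1, 0)).comp (fderiv ℝ (fderiv ℝ u) p)
        + I • (ContinuousLinearMap.apply ℝ ℂ (0, 1)).comp (fderiv ℝ (fderiv ℝ u) p))) p := by
    simp only [zbarPart, div_eq_inv_mul]
    exact ((happ (1, 0)).add ((happ (0, 1)).const_mul I)).const_mul _
  rw [(hconj.fun_mul hz).fderiv, (hconj.fun_mul hzb).fderiv, Complex.ofReal_sub,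
    ← Complex.normSq_eq_norm_sq, ← Complex.normSq_eq_norm_sq, Complex.normSq_eq_conj_mul_self,
    Complex.normSq_eq_conj_mul_self]
  simp [zPart, zbarPart, map_div₀, map_ofNat]
  rw [hsymm]
  ring_nf

/-- The periodic Beltrami equation: a solution without zeros, with independent periods. -/
theorem exists_beltrami (hmean : MeanPrinciple) {e : Freq → ℂ} (he : Rapid e) {κ : ℝ}
    (hκ0 : 0 ≤ κ) (hκ : κ < 1) (hb : ∀ p, ‖ser e p‖ ≤ κ)
    (hop : ∀ (S T : Finset Freq) (v : Freq → ℂ),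
      ∑ k ∈ T, ‖∑ j ∈ S, e (k - j) * v j‖ ^ 2 ≤ κ ^ 2 * ∑ j ∈ S, ‖v j‖ ^ 2) :
    ∃ (c : ℂ) (f Ω : ℝ × ℝ → ℂ), ‖c‖ < 1 ∧ ContDiff ℝ ∞ f ∧ ContDiff ℝ ∞ Ω ∧
      (∀ p (m n : ℤ), Ω (p + ((m : ℝ), (n : ℝ))) = Ω p) ∧
      (∀ p (m n : ℤ), f (p + ((m : ℝ), (n : ℝ))) =
        f p + dzL 1 c ((m : ℝ), (n : ℝ))) ∧
      (∀ p, HasFDerivAt f (dzL (Ω p) (ser e p * Ω p)) p) ∧ ∀ p, Ω p ≠ 0 := by
  classical
  have hes : Summable fun k => ‖e k‖ := he.summable_norm
  have hsmall : ∀ {b : Freq → ℂ}, Rapid b → Memℓp b 2 := fun {b} hb' =>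
    memLp_of_sum_le (C := (∑' k, ‖b k‖) ^ 2) fun T =>
      (Finset.sum_sq_le_sq_sum_of_nonneg fun k _ => norm_nonneg _).trans
        (pow_le_pow_left₀ (Finset.sum_nonneg fun k _ => norm_nonneg _)
          (hb'.summable_norm.sum_le_tsum T fun k _ => norm_nonneg _) 2)
  have hnl : ∀ {M : Freq → ℂ → ℂ}, (∀ k z z', ‖M k z - M k z'‖ ≤ ‖z - z'‖) →
      (∀ k, M k 0 = 0) → ∀ k z, ‖M k z‖ ≤ ‖z‖ := fun {M} h1 h0 k z => by
    simpa [h0] using h1 k z 0
  have hSQ : ∀ {M : Freq → ℂ → ℂ} {v : Freq → ℂ}, (∀ k z, ‖M k z‖ ≤ ‖z‖) → Rapid v →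
      Rapid fun k => M k (v k) := fun {M v} h hv =>
    hv.of_le (C := 1) (m := 0) fun k => by simpa using h k (v k)
  -- the first fixed point
  obtain ⟨Q, hQ⟩ := exists_fixedPoint hes hκ0 hκ hop beurling_lip beurling_zero (hsmall he)
  have hQr : Rapid (⇑Q) := rapid_of_bound fun s => decay_of_fixedPoint hes hκ0 hκ hop
    (hnl beurling_lip beurling_zero) fnrm fnrm_nonneg fnrm_neg fnrm_add he he Q hQ s
  set P : Freq → ℂ := fun k => beurling k (Q k) with hP
  have hPr : Rapid P := hSQ (hnl beurling_lip beurling_zero) hQr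
  set cΩ : Freq → ℂ := delta 1 + P with hcΩ
  have hΩr : Rapid cΩ := (rapid_delta 1).add hPr
  have hconv : ∀ k, Q k = sconv e cΩ k := fun k => by
    have h1 := summable_sconv hes (v := P) (E := ∑' j, ‖P j‖)
      (fun j => hPr.summable_norm.le_tsum j fun _ _ => norm_nonneg _) k
    have h2 : Summable fun j => e (k - j) * delta 1 j :=
      summable_of_ne_finset_zero (s := {(0 : Freq)}) fun b hb' => by
        simp [delta, show b ≠ 0 from by simpa using hb']
    rw [hQ k]
    simp only [sconv, hcΩ, Pi.add_apply, mul_add]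
    have h3 : ∑' j, e (k - j) * delta 1 j = e k := by
      rw [tsum_eq_single (0 : Freq) fun b hb' => by simp [delta, hb']]
      simp [delta]
    rw [h2.tsum_add h1, h3]
  set Ω : ℝ × ℝ → ℂ := ser cΩ with hΩ
  have hQΩ : ∀ p, ser (⇑Q) p = ser e p * Ω p := fun p => by
    rw [hΩ, ← ser_sconv hes hΩr.summable_norm]
    exact congrFun (congrArg ser (funext hconv)) p
  -- periods are independent
  have hc : ‖Q 0‖ < 1 := by
    have h1 : ∀ T : Finset Freq, ∑ k ∈ T, ‖cΩ k‖ ^ 2 ≤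
        Real.sqrt (1 + (‖Q‖ ^ 2 - ‖Q 0‖ ^ 2)) ^ 2 := by
      intro T
      have h0 : ‖Q 0‖ ^ 2 ≤ ‖Q‖ ^ 2 := by simpa using lp_sq_sum_le Q {0}
      rw [Real.sq_sqrt (by linarith)]
      have h3 : ∑ k ∈ T.erase 0, ‖cΩ k‖ ^ 2 = ∑ k ∈ T.erase 0, ‖Q k‖ ^ 2 :=
        Finset.sum_congr rfl fun k hk => by
          have hk0 := Finset.ne_of_mem_erase hk
          have e1 : cΩ k = zMul k / zbarMul k * Q k := by simp [hcΩ, hP, delta, beurling, hk0]
          rw [e1, norm_mul, norm_ratio hk0, one_mul]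
      have h4 : ∑ k ∈ T, ‖cΩ k‖ ^ 2 ≤ 1 + ∑ k ∈ T.erase 0, ‖cΩ k‖ ^ 2 := by
        by_cases hT : (0 : Freq) ∈ T
        · rw [← Finset.add_sum_erase T _ hT]
          simp [hcΩ, hP, delta, beurling]
        · rw [Finset.erase_eq_of_notMem hT]; linarith
      have h5 : ‖Q 0‖ ^ 2 + ∑ k ∈ T.erase 0, ‖Q k‖ ^ 2 ≤ ‖Q‖ ^ 2 := by
        have := lp_sq_sum_le Q (insert 0 (T.erase 0))
        rwa [Finset.sum_insert (Finset.notMem_erase 0 T)] at this
      linarith
    have h6 : ‖Q‖ ≤ κ * Real.sqrt (1 + (‖Q‖ ^ 2 - ‖Q 0‖ ^ 2)) :=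
      lp_norm_le_of_sum (mul_nonneg hκ0 (Real.sqrt_nonneg _)) fun T => by
        exact (le_of_eq (Finset.sum_congr rfl fun k _ => by rw [hconv k])).trans
          (sconv_bound hes hop h1 (Real.sqrt_nonneg _) T)
    have h0 : ‖Q 0‖ ^ 2 ≤ ‖Q‖ ^ 2 := by simpa using lp_sq_sum_le Q {0}
    have h7 := pow_le_pow_left₀ (norm_nonneg Q) h6 2
    rw [mul_pow, Real.sq_sqrt (by linarith)] at h7
    have hκ2 : κ ^ 2 < 1 := by nlinarith
    nlinarith [norm_nonneg (Q 0)]
  -- the map
  set f : ℝ × ℝ → ℂ := fun q => dzL 1 (Q 0) q + ser (primitive ⇑Q) q with hf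
  have hfd : ∀ p, HasFDerivAt f (dzL (Ω p) (ser e p * Ω p)) p := fun p => by
    refine (hasFDerivAt_affine_ser hQr.primitive 1 (Q 0) p).congr_fderiv ?_
    rw [zbar_primitive, z_primitive, ser_add hQr.summable_norm (rapid_delta _).summable_norm,
      ser_delta, ← hQΩ, hΩ, hcΩ, ser_add (rapid_delta 1).summable_norm hPr.summable_norm, ser_delta]
    congr 1; ring
  have hfper : ∀ p (m n : ℤ), f (p + ((m : ℝ), (n : ℝ))) = f p + dzL 1 (Q 0) ((m : ℝ), (n : ℝ)) :=
    fun p m n => by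
      simp only [hf, map_add, ser_periodic]; ring
  have hΩper : ∀ p (m n : ℤ), Ω (p + ((m : ℝ), (n : ℝ))) = Ω p := fun p => ser_periodic _ p
  refine ⟨Q 0, f, Ω, hc, ?_, contDiff_ser hΩr, hΩper, hfper, hfd, ?_⟩
  · exact (dzL 1 (Q 0)).contDiff.add (contDiff_ser hQr.primitive)
  -- the second fixed point
  obtain ⟨R, hR⟩ := exists_fixedPoint hes hκ0 hκ hop beurling'_lip beurling'_zero (hsmall he.zMul)
  have hRr : Rapid (⇑R) := rapid_of_bound fun s => decay_of_fixedPoint hes hκ0 hκ hop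
    (hnl beurling'_lip beurling'_zero) fnrm fnrm_nonneg fnrm_neg fnrm_add he he.zMul R hR s
  set R' : Freq → ℂ := fun k => beurling' k (R k) with hR'
  have hR'r : Rapid R' := hSQ (hnl beurling'_lip beurling'_zero) hRr
  set μz : ℝ × ℝ → ℂ := ser fun k => zMul k * e k with hμz
  have hRser : ∀ p, ser (⇑R) p = μz p + ser e p * ser R' p := fun p => by
    rw [hμz, ← ser_sconv hes hR'r.summable_norm, ← ser_add he.zMul.summable_norm]
    · exact congrFun (congrArg ser (funext hR)) p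
    · have : sconv e R' = fun k => R k - zMul k * e k := funext fun k => by
        rw [hR k]; simp [hR']
      rw [this]
      exact (hRr.summable_norm.add he.zMul.summable_norm).of_nonneg_of_le
        (fun k => norm_nonneg _) fun k => norm_sub_le _ _
  set H : ℝ × ℝ → ℂ := fun q => dzL (-conj (R 0)) (R 0) q + ser (primitive ⇑R) q with hH
  have hHd : ∀ p, HasFDerivAt H (dzL (ser R' p) (μz p + ser e p * ser R' p)) p := fun p => by
    refine (hasFDerivAt_affine_ser hRr.primitive _ _ p).congr_fderiv ?_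
    have h1 : R' = delta (-conj (R 0)) + fun k => beurling k (R k) := by
      funext k
      by_cases h : k = 0
      · subst h; simp [hR', beurling', beurling, delta]
      · simp [hR', beurling', beurling, delta, h]
    rw [← hRser, zbar_primitive, z_primitive, ser_add hRr.summable_norm (rapid_delta _).summable_norm,
      ser_delta, h1, ser_add (rapid_delta _).summable_norm
      (hSQ (hnl beurling_lip beurling_zero) hRr).summable_norm, ser_delta]
    congr 1; ring
  have hHre : ∀ q, (H q).re = (ser (primitive ⇑R) q).re := fun q => by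
    simp only [hH, Complex.add_re, dzL_apply]
    simp
  -- derivatives of `Ω`
  set Ωz : ℝ × ℝ → ℂ := ser fun k => zMul k * cΩ k with hΩz
  have hzz : (fun k => zbarMul k * cΩ k) = fun k => zMul k * Q k := by
    funext k
    by_cases h : k = 0
    · subst h; simp [zMul, zbarMul]
    · simp only [hcΩ, hP, Pi.add_apply, delta, beurling, if_neg h, zero_add]
      field_simp [zbarMul_ne_zero h]
  have hprod : ∀ p, ser (fun k => zMul k * Q k) p = μz p * Ω p + ser e p * Ωz p := fun p => by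
    have h1 : fderiv ℝ (ser (⇑Q)) p = fderiv ℝ (fun q => ser e q * Ω q) p := by
      rw [show ser (⇑Q) = fun q => ser e q * Ω q from funext hQΩ]
    rw [fderiv_ser hQr, (((hasFDerivAt_ser he p)).fun_mul (hasFDerivAt_ser hΩr p)).fderiv] at h1
    have h2 := congrArg zPart h1
    rw [zPart_dzL, zPart_add, zPart_smul, zPart_smul, zPart_dzL, zPart_dzL] at h2
    rw [h2]; ring
  -- the quotient
  set u : ℝ × ℝ → ℂ := fun q => Ω q * Complex.exp (-H q) with hu
  set g : ℝ × ℝ → ℂ := fun q => Ωz q - Ω q * ser R' q with hg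
  have hud : ∀ p, HasFDerivAt u
      (dzL (Complex.exp (-H p) * g p) (ser e p * (Complex.exp (-H p) * g p))) p := fun p => by
    refine ((hasFDerivAt_ser hΩr p).fun_mul (hHd p).neg.cexp).congr_fderiv ?_
    rw [hzz, hprod]
    refine ContinuousLinearMap.ext fun v => ?_
    simp only [ContinuousLinearMap.add_apply, smul_apply, smul_eq_mul,
      ContinuousLinearMap.neg_apply, Pi.neg_apply, dzL_apply, hg, hΩ, hΩz]
    ring
  have hHs : ContDiff ℝ ∞ H :=
    (dzL (-conj (R 0)) (R 0)).contDiff.add (contDiff_ser hRr.primitive)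
  have hus : ContDiff ℝ ∞ u := (contDiff_ser hΩr).mul (hHs.neg.cexp)
  have huz : ∀ q, zPart (fderiv ℝ u q) = Complex.exp (-H q) * g q := fun q => by
    rw [(hud q).fderiv, zPart_dzL]
  have huzb : ∀ q, zbarPart (fderiv ℝ u q) = ser e q * (Complex.exp (-H q) * g q) := fun q => by
    rw [(hud q).fderiv, zbarPart_dzL]
  have hnormE : ∀ q, conj (Complex.exp (-H q)) * Complex.exp (-H q)
      = ((Real.exp (-(ser (primitive ⇑R) q).re)) ^ 2 : ℝ) := fun q => by
    rw [← Complex.normSq_eq_conj_mul_self, Complex.normSq_eq_norm_sq, Complex.norm_exp,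
      Complex.neg_re, hHre]
  have hgper : ∀ p (m n : ℤ), g (p + ((m : ℝ), (n : ℝ))) = g p := fun p m n => by
    simp only [hg, hΩ, hΩz, ser_periodic]
  have hfder : ContDiff ℝ ∞ (fderiv ℝ u) := hus.fderiv_right (by simp)
  have hAper : ∀ p (m n : ℤ),
      conj (u (p + ((m : ℝ), (n : ℝ)))) * zPart (fderiv ℝ u (p + ((m : ℝ), (n : ℝ))))
        = conj (u p) * zPart (fderiv ℝ u p) := fun p m n => by
    have key : ∀ q, conj (u q) * zPart (fderiv ℝ u q)
        = conj (Ω q) * g q * ((Real.exp (-(ser (primitive ⇑R) q).re)) ^ 2 : ℝ) := fun q => by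
      rw [huz, ← hnormE]; simp only [hu, map_mul]; ring
    rw [key, key, hΩper, hgper, ser_periodic]
  have hBper : ∀ p (m n : ℤ),
      conj (u (p + ((m : ℝ), (n : ℝ)))) * zbarPart (fderiv ℝ u (p + ((m : ℝ), (n : ℝ))))
        = conj (u p) * zbarPart (fderiv ℝ u p) := fun p m n => by
    have h := hAper p m n
    rw [huz, huz] at h
    rw [huzb, huzb, ser_periodic, mul_left_comm, h, mul_left_comm]
  have hD := hmean (fun q => conj (u q) * zPart (fderiv ℝ u q))
    (fun q => conj (u q) * zbarPart (fderiv ℝ u q))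
    ((conjCLE.contDiff.comp hus).mul (contDiff_zPart hfder))
    ((conjCLE.contDiff.comp hus).mul (contDiff_zbarPart hfder)) hAper hBper
    (fun q => ⟨‖zPart (fderiv ℝ u q)‖ ^ 2 - ‖zbarPart (fderiv ℝ u q)‖ ^ 2, by
      rw [huzb, huz, norm_mul (ser e q)]
      have := mul_le_of_le_one_left (norm_nonneg (Complex.exp (-H q) * g q))
        ((hb q).trans hκ.le)
      exact sub_nonneg.mpr (pow_le_pow_left₀ (by positivity) this 2),
      jacobian_identity hus q⟩)
  have hconst : ∀ q, fderiv ℝ u q = 0 := fun q => by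
    have h := hD q
    rw [jacobian_identity hus, Complex.ofReal_eq_zero, huzb, huz, norm_mul (ser e q)] at h
    have h2 : ‖Complex.exp (-H q) * g q‖ = 0 := by
      have : ‖ser e q‖ ^ 2 < 1 := by
        nlinarith [hb q, norm_nonneg (ser e q)]
      have h3 : ‖Complex.exp (-H q) * g q‖ ^ 2 * (1 - ‖ser e q‖ ^ 2) = 0 := by
        rw [← h]; ring
      rcases mul_eq_zero.mp h3 with h4 | h4
      · exact pow_eq_zero_iff two_ne_zero |>.mp h4
      · linarith
    rw [(hud q).fderiv, norm_eq_zero.mp h2, mul_zero]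
    exact ContinuousLinearMap.ext fun v => by simp [dzL_apply]
  have hu0 : ∀ p q, u p = u q := is_const_of_fderiv_eq_zero (hus.differentiable (by simp)) hconst
  intro p hp
  have hall : ∀ q, Ω q = 0 := fun q => by
    have := hu0 q p
    simp only [hu, hp, zero_mul, mul_eq_zero, Complex.exp_ne_zero, or_false] at this
    exact this
  have hfc : ∀ q, fderiv ℝ f q = 0 := fun q => by
    rw [(hfd q).fderiv, hall q, mul_zero]
    exact ContinuousLinearMap.ext fun v => by simp [dzL_apply]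
  have h1 := hfper 0 1 0
  rw [is_const_of_fderiv_eq_zero (fun q => (hfd q).differentiableAt) hfc (0 + (((1 : ℤ) : ℝ), ((0 : ℤ) : ℝ))) 0] at h1
  have h2 : dzL 1 (Q 0) (((1 : ℤ) : ℝ), ((0 : ℤ) : ℝ)) = 0 := by linear_combination -h1
  simp [dzL_apply, cx] at h2
  have : ‖Q 0‖ = 1 := by
    rw [show Q 0 = -1 by linear_combination h2, norm_neg, norm_one]
  linarith

end Vale.Agent.P205.Unif
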