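import Mathlib

/-!
# P205 uniformization: multiplication by a continuous function bounded by `κ` acts on Fourier
coefficients as a convolution of norm at most `κ`
-/

namespace Vale.Agent.P205.Unif

open UnitAddTorus MeasureTheory

noncomputable local instance : MeasureSpace UnitAddCircle := ⟨AddCircle.haarAddCircle⟩

local instance : IsProbabilityMeasure (volume : Measure UnitAddCircle) :=
  inferInstanceAs (IsProbabilityMeasure AddCircle.haarAddCircle)

variable {d : Type*} [Fintype d]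

/-- Integrability of continuous functions on the torus. -/
lemma integrable_torus (f : C(UnitAddTorus d, ℂ)) : Integrable (fun t => f t) volume :=
  f.continuous.integrable_of_hasCompactSupport (HasCompactSupport.of_compactSpace _)

/-- The coefficients of a product with a trigonometric polynomial. -/
lemma mFourierCoeff_mul_poly (μ : C(UnitAddTorus d, ℂ)) (S : Finset (d → ℤ)) (v : (d → ℤ) → ℂ)
    (k : d → ℤ) :
    mFourierCoeff (⇑(μ * ∑ j ∈ S, v j • mFourier j)) k
      = ∑ j ∈ S, mFourierCoeff (⇑μ) (k - j) * v j := by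
  have hint : ∀ j ∈ S, Integrable (fun t => v j * (mFourier (-(k - j)) t * μ t)) volume :=
    fun j _ => (integrable_torus (mFourier (-(k - j)) * μ)).const_mul (v j)
  simp only [mFourierCoeff, smul_eq_mul]
  rw [show (fun t => mFourier (-k) t * (μ * ∑ j ∈ S, v j • mFourier j : C(UnitAddTorus d, ℂ)) t)
    = fun t => ∑ j ∈ S, v j * (mFourier (-(k - j)) t * μ t) from ?_, integral_finsetSum S hint]
  · refine Finset.sum_congr rfl fun j _ => ?_
    rw [integral_const_mul, mul_comm]
  · funext t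
    simp only [ContinuousMap.mul_apply, ContinuousMap.sum_apply, ContinuousMap.smul_apply,
      smul_eq_mul, Finset.mul_sum]
    refine Finset.sum_congr rfl fun j _ => ?_
    rw [show -(k - j) = -k + j by abel, mFourier_add]
    ring

/-- The operator bound. -/
theorem hop_of_bound (μ : C(UnitAddTorus d, ℂ)) {κ : ℝ} (hκ : ∀ t, ‖μ t‖ ≤ κ)
    (S T : Finset (d → ℤ)) (v : (d → ℤ) → ℂ) :
    ∑ k ∈ T, ‖∑ j ∈ S, mFourierCoeff (⇑μ) (k - j) * v j‖ ^ 2 ≤ κ ^ 2 * ∑ j ∈ S, ‖v j‖ ^ 2 := by
  classical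
  set P : C(UnitAddTorus d, ℂ) := ∑ j ∈ S, v j • mFourier j with hP
  have hsq : ∀ f : C(UnitAddTorus d, ℂ),
      HasSum (fun i => ‖mFourierCoeff (⇑f) i‖ ^ 2) (∫ t, ‖f t‖ ^ 2) := by
    intro f
    have h := hasSum_sq_mFourierCoeff (ContinuousMap.toLp (E := ℂ) 2 volume ℂ f)
    simp only [mFourierCoeff_toLp] at h
    convert h using 1
    refine integral_congr_ae ?_
    filter_upwards [ContinuousMap.coeFn_toLp (p := 2) (𝕜 := ℂ) volume f] with t ht
    rw [ht]
  have hcP : ∀ k, mFourierCoeff (⇑P) k = if k ∈ S then v k else 0 := by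
    intro k
    have h := mFourierCoeff_mul_poly (1 : C(UnitAddTorus d, ℂ)) S v k
    rw [one_mul] at h
    have hδ : ∀ m : d → ℤ, mFourierCoeff (⇑(1 : C(UnitAddTorus d, ℂ))) m = if m = 0 then 1 else 0 := by
      intro m
      have h1 := mFourierBasis_repr (d := d) (ContinuousMap.toLp (E := ℂ) 2 volume ℂ (mFourier 0)) m
      rw [mFourierCoeff_toLp, mFourier_zero] at h1
      rw [← h1, ← mFourier_zero, show ContinuousMap.toLp (E := ℂ) 2 volume ℂ (mFourier (0 : d → ℤ))
        = mFourierBasis (d := d) 0 by rw [coe_mFourierBasis], HilbertBasis.repr_self,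
        lp.single_apply]
      split_ifs <;> simp_all
    rw [hP, h]
    simp only [hδ, sub_eq_zero, ite_mul, one_mul, zero_mul, Finset.sum_ite_eq]
  have hPsum : ∫ t, ‖P t‖ ^ 2 = ∑ j ∈ S, ‖v j‖ ^ 2 := by
    refine (hsq P).unique ?_
    have : (fun i => ‖mFourierCoeff (⇑P) i‖ ^ 2) = fun i => if i ∈ S then ‖v i‖ ^ 2 else 0 := by
      funext i; rw [hcP]; split_ifs <;> simp
    rw [this]
    rw [← Finset.sum_congr rfl fun j hj => (if_pos hj : (if j ∈ S then ‖v j‖ ^ 2 else 0) = ‖v j‖ ^ 2)]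
    exact hasSum_sum_of_ne_finset_zero fun b hb => if_neg hb
  calc ∑ k ∈ T, ‖∑ j ∈ S, mFourierCoeff (⇑μ) (k - j) * v j‖ ^ 2
      = ∑ k ∈ T, ‖mFourierCoeff (⇑(μ * P)) k‖ ^ 2 :=
        Finset.sum_congr rfl fun k _ => by rw [hP, mFourierCoeff_mul_poly]
    _ ≤ ∫ t, ‖(μ * P) t‖ ^ 2 :=
        sum_le_hasSum T (fun i _ => sq_nonneg _) (hsq (μ * P))
    _ ≤ ∫ t, κ ^ 2 * ‖P t‖ ^ 2 := by
        refine integral_mono_of_nonneg (Filter.Eventually.of_forall fun t => sq_nonneg _) ?_
          (Filter.Eventually.of_forall fun t => ?_)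
        · exact ((continuous_norm.comp P.continuous).pow 2).const_smul (κ ^ 2) |>.integrable_of_hasCompactSupport
            (HasCompactSupport.of_compactSpace _)
        · dsimp only
          rw [ContinuousMap.mul_apply, norm_mul, mul_pow]
          exact mul_le_mul_of_nonneg_right (pow_le_pow_left₀ (norm_nonneg _) (hκ t) 2) (sq_nonneg _)
    _ = κ ^ 2 * ∑ j ∈ S, ‖v j‖ ^ 2 := by rw [integral_const_mul, hPsum]

end Vale.Agent.P205.Unif
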