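import Mathlib
import Vale.Agent.P205.Defs
import Vale.Agent.P205.Fourier.Coeff
import Vale.Agent.P205.Unif.Operator
import Vale.Agent.P205.Unif.Beltrami

/-!
# P205: uniformization of smooth periodic metrics on the plane
-/

namespace Vale.Agent.P205.Unif

open Complex MeasureTheory UnitAddTorus
open scoped ContDiff ComplexConjugate

noncomputable local instance : MeasureSpace UnitAddCircle := ⟨AddCircle.haarAddCircle⟩

local instance : Measure.IsAddHaarMeasure (volume : Measure UnitAddCircle) :=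
  inferInstanceAs (Measure.IsAddHaarMeasure AddCircle.haarAddCircle)

local instance : IsProbabilityMeasure (volume : Measure UnitAddCircle) :=
  inferInstanceAs (IsProbabilityMeasure AddCircle.haarAddCircle)

lemma four_chr (k : Freq) (p : ℝ × ℝ) : Four.chr k p = chr k p := by
  rw [Four.chr, chr, Four.ph_apply, phaseL_apply]
  congr 1
  push_cast
  ring

lemma four_fser (c : Freq → ℂ) : Four.fser c = ser c := by
  funext p
  simp only [Four.fser, ser, four_chr]

lemma periodic2_of_int {α : Type*} {f : ℝ × ℝ → α}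
    (h : ∀ p (m n : ℤ), f (p + ((m : ℝ), (n : ℝ))) = f p) : Periodic2 (1, 0) (0, 1) f :=
  ⟨fun p => by simpa using h p 1 0, fun p => by simpa using h p 0 1⟩

lemma integral_liftT_fderiv {f : ℝ × ℝ → ℂ} (hs : ContDiff ℝ ∞ f)
    (hf : Periodic2 (1, 0) (0, 1) f) (v : ℝ × ℝ) :
    ∫ t, Four.liftT (fun p => fderiv ℝ f p v) t = 0 := by
  have h := Four.fcoef_fderiv hs hf v 0
  rw [Four.fcoef, mFourierCoeff] at h
  simp only [neg_zero, mFourier_zero, ContinuousMap.one_apply, one_smul] at h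
  rw [h, show Four.dmul v 0 = 0 by simp [Four.dmul, Four.ph_apply], zero_mul]

/-- The mean zero principle. -/
theorem meanPrinciple : MeanPrinciple := by
  intro A B hA hB pA pB hnn
  have pA' := periodic2_of_int pA
  have pB' := periodic2_of_int pB
  set D : ℝ × ℝ → ℂ := fun p => zbarPart (fderiv ℝ A p) - zPart (fderiv ℝ B p) with hD
  have hAv := fun v => Four.periodic_fderiv pA' v
  have hBv := fun v => Four.periodic_fderiv pB' v
  have hDp : Periodic2 (1, 0) (0, 1) D := by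
    constructor <;> intro p <;> simp only [hD, zbarPart, zPart]
    · rw [show fderiv ℝ A (p + (1, 0)) (1, 0) = fderiv ℝ A p (1, 0) from (hAv (1, 0)).1 p,
        show fderiv ℝ A (p + (1, 0)) (0, 1) = fderiv ℝ A p (0, 1) from (hAv (0, 1)).1 p,
        show fderiv ℝ B (p + (1, 0)) (1, 0) = fderiv ℝ B p (1, 0) from (hBv (1, 0)).1 p,
        show fderiv ℝ B (p + (1, 0)) (0, 1) = fderiv ℝ B p (0, 1) from (hBv (0, 1)).1 p]
    · rw [show fderiv ℝ A (p + (0, 1)) (1, 0) = fderiv ℝ A p (1, 0) from (hAv (1, 0)).2 p,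
        show fderiv ℝ A (p + (0, 1)) (0, 1) = fderiv ℝ A p (0, 1) from (hAv (0, 1)).2 p,
        show fderiv ℝ B (p + (0, 1)) (1, 0) = fderiv ℝ B p (1, 0) from (hBv (1, 0)).2 p,
        show fderiv ℝ B (p + (0, 1)) (0, 1) = fderiv ℝ B p (0, 1) from (hBv (0, 1)).2 p]
  have hDc : Continuous D :=
    ((contDiff_zbarPart (hA.fderiv_right (m := ∞) le_rfl)).continuous).sub
      ((contDiff_zPart (hB.fderiv_right (m := ∞) le_rfl)).continuous)
  have hint : ∀ {C : ℝ × ℝ → ℂ}, ContDiff ℝ ∞ C → Periodic2 (1, 0) (0, 1) C → ∀ v,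
      Integrable (Four.liftT fun p => fderiv ℝ C p v) := fun {C} hC pC v =>
    Four.integrable_T2 (Four.continuous_liftT (Four.contDiff_fderiv hC v).continuous
      (Four.periodic_fderiv pC v))
  have hI : ∫ t, Four.liftT D t = 0 := by
    have e : Four.liftT D = fun t =>
        (Four.liftT (fun p => fderiv ℝ A p (1, 0)) t + I * Four.liftT (fun p => fderiv ℝ A p (0, 1)) t) / 2
        - (Four.liftT (fun p => fderiv ℝ B p (1, 0)) t - I * Four.liftT (fun p => fderiv ℝ B p (0, 1)) t) / 2 :=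
      rfl
    rw [e, integral_sub, integral_div, integral_div, integral_add, integral_sub, integral_const_mul,
      integral_const_mul, integral_liftT_fderiv hA pA', integral_liftT_fderiv hA pA',
      integral_liftT_fderiv hB pB', integral_liftT_fderiv hB pB']
    · simp
    · exact hint hB pB' _
    · exact (hint hB pB' _).const_mul I
    · exact hint hA pA' _
    · exact (hint hA pA' _).const_mul I
    · exact ((hint hA pA' _).add ((hint hA pA' _).const_mul I)).div_const 2
    · exact ((hint hB pB' _).sub ((hint hB pB' _).const_mul I)).div_const 2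
  have hLc : Continuous (Four.liftT D) := Four.continuous_liftT hDc hDp
  have hre : Continuous fun t => (Four.liftT D t).re := continuous_re.comp hLc
  have hI' : ∫ t, (Four.liftT D t).re = 0 := by
    have h := integral_re (𝕜 := ℂ) (Four.integrable_T2 hLc)
    simp only [RCLike.re_to_complex] at h
    rw [h, hI, Complex.zero_re]
  have hnn' : ∀ t, 0 ≤ (Four.liftT D t).re := fun t => by
    obtain ⟨r, hr, he⟩ := hnn (Four.rep t)
    simp only [Four.liftT, hD, he, Complex.ofReal_re]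
    exact hr
  have hzero : (fun t => (Four.liftT D t).re) = 0 :=
    (Continuous.ae_eq_iff_eq volume hre continuous_const).mp
      ((integral_eq_zero_iff_of_nonneg hnn'
        (hre.integrable_of_hasCompactSupport (HasCompactSupport.of_compactSpace _))).mp hI')
  intro p
  have h1 := congrFun hzero (Four.proj p)
  simp only [Four.liftT_proj hDp, Pi.zero_apply] at h1
  obtain ⟨r, -, he⟩ := hnn p
  simp only [hD, he, Complex.ofReal_re] at h1
  rw [he, h1, Complex.ofReal_zero]

/-- A local diffeomorphism of the plane at bounded distance from a linear bijection is bijective. -/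
theorem bijective_of_near_linear {f : ℝ × ℝ → ℝ × ℝ} (hf : ContDiff ℝ ∞ f)
    (hf' : ∀ p, ∃ L : (ℝ × ℝ) ≃L[ℝ] ℝ × ℝ, HasFDerivAt f (L : ℝ × ℝ →L[ℝ] ℝ × ℝ) p)
    (T : (ℝ × ℝ) ≃L[ℝ] ℝ × ℝ) {C : ℝ} (hC : ∀ p, ‖f p - T p‖ ≤ C) : Function.Bijective f := by
  have hlh : IsLocalHomeomorph f := fun p => by
    obtain ⟨L, hL⟩ := hf' p
    exact ⟨hf.contDiffAt.toOpenPartialHomeomorph f hL (by simp),
      hf.contDiffAt.mem_toOpenPartialHomeomorph_source hL (by simp),
      (hf.contDiffAt.toOpenPartialHomeomorph_coe hL (by simp)).symm⟩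
  have hproper : IsProperMap f := by
    refine isProperMap_iff_tendsto_cocompact.mpr ⟨hf.continuous, ?_⟩
    rw [← Metric.cobounded_eq_cocompact, ← tendsto_norm_atTop_iff_cobounded]
    have hT : Filter.Tendsto (fun p => ‖T p‖) (Bornology.cobounded (ℝ × ℝ)) Filter.atTop := by
      rw [tendsto_norm_atTop_iff_cobounded, Metric.cobounded_eq_cocompact]
      exact T.toHomeomorph.isClosedEmbedding.tendsto_cocompact
    refine Filter.tendsto_atTop_mono (fun p => ?_) (Filter.tendsto_atTop_add_const_right _ (-C) hT)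
    have h := norm_le_norm_add_norm_sub' (T p) (f p)
    have h2 := hC p
    rw [norm_sub_rev] at h
    linarith
  have hfin : ∀ x ∈ (Set.univ : Set (ℝ × ℝ)), (f ⁻¹' {x}).Finite := fun x _ =>
    (hproper.isCompact_preimage isCompact_singleton).finite
      (IsDiscrete.of_openPartialHomeomorph f subset_rfl fun e _ => by
        obtain ⟨φ, h1, h2⟩ := hlh e
        exact ⟨φ, h1, h2.symm⟩)
  have hcov : IsCoveringMap f := isCoveringMap_iff_isCoveringMapOn_univ.mpr
    (hproper.isClosedMap.isCoveringMapOn_of_isLocalHomeomorphOn hfin fun e _ => hlh e)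
  have hsec : ∀ a, ∃ s : C(ℝ × ℝ, ℝ × ℝ), s (f a) = a ∧ f ∘ s = id := fun a => by
    obtain ⟨s, ⟨hs1, hs2⟩, -⟩ :=
      hcov.existsUnique_continuousMap_lifts (ContinuousMap.id (ℝ × ℝ)) (f a) a rfl
    exact ⟨s, hs1, hs2⟩
  refine ⟨fun a b hab => ?_, fun x => ?_⟩
  · obtain ⟨s, hs1, hs2⟩ := hsec a
    have h := hcov.eq_of_comp_eq (g₁ := s ∘ f) (g₂ := id) (s.continuous.comp hf.continuous)
      continuous_id (by rw [← Function.comp_assoc, hs2]; rfl) a hs1
    have := congrFun h b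
    simp only [Function.comp_apply, id_eq, ← hab, hs1] at this
    exact this
  · obtain ⟨s, -, hs2⟩ := hsec 0
    exact ⟨s x, congrFun hs2 x⟩

lemma sq2_equiv (z : ℂ) : sq2 (equivRealProdCLM z) = ‖z‖ ^ 2 := by
  rw [← Complex.normSq_eq_norm_sq, Complex.normSq_apply]
  simp [sq2, sq]

/-- The real differential `v ↦ a v + b v̄` is bijective when `‖b‖ < ‖a‖`. -/
lemma exists_equiv_dzL {a b : ℂ} (h : ‖b‖ < ‖a‖) :
    ∃ L : (ℝ × ℝ) ≃L[ℝ] ℝ × ℝ, ∀ v, L v = equivRealProdCLM (dzL a b v) := by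
  let L₀ : ℝ × ℝ →ₗ[ℝ] ℝ × ℝ :=
    ((equivRealProdCLM : ℂ →L[ℝ] ℝ × ℝ).comp (dzL a b)).toLinearMap
  have hinj : Function.Injective L₀ := by
    refine (injective_iff_map_eq_zero _).mpr fun v hv => ?_
    have h1 : dzL a b v = 0 := equivRealProdCLM.injective (by rw [map_zero]; exact hv)
    rw [dzL_apply, add_eq_zero_iff_eq_neg] at h1
    have h2 := congrArg norm h1
    rw [norm_neg, norm_mul, norm_mul, Complex.norm_conj] at h2
    have h3 : ‖cx v‖ = 0 := by nlinarith [norm_nonneg (cx v)]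
    have h4 := norm_eq_zero.mp h3
    have hre : (cx v).re = v.1 := by simp [cx]
    have him : (cx v).im = v.2 := by simp [cx]
    rw [h4] at hre him
    exact Prod.ext hre.symm him.symm
  exact ⟨(LinearEquiv.ofInjectiveEndo L₀ hinj).toContinuousLinearEquiv, fun v => rfl⟩

/-- **Uniformization** of smooth doubly periodic metrics on the plane. -/
theorem exists_isothermal {E F G : R2 → ℝ} (hE : ContDiff ℝ ∞ E) (hF : ContDiff ℝ ∞ F)
    (hG : ContDiff ℝ ∞ G) (pE : Periodic2 (1, 0) (0, 1) E) (pF : Periodic2 (1, 0) (0, 1) F)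
    (pG : Periodic2 (1, 0) (0, 1) G) (posE : ∀ p, 0 < E p) (posD : ∀ p, F p ^ 2 < E p * G p) :
    ∃ (Φ : R2 ≃ R2) (a b : R2) (ρ : R2 → ℝ), ContDiff ℝ ∞ Φ ∧ ContDiff ℝ ∞ Φ.symm ∧
      det2 a b ≠ 0 ∧ (∀ p, Φ (p + (1, 0)) = Φ p + a) ∧ (∀ p, Φ (p + (0, 1)) = Φ p + b) ∧
      ContDiff ℝ ∞ ρ ∧ Periodic2 (1, 0) (0, 1) ρ ∧ (∀ p, 0 < ρ p) ∧
      ∀ p v, E p * v.1 ^ 2 + 2 * F p * v.1 * v.2 + G p * v.2 ^ 2
        = ρ p * sq2 (fderiv ℝ Φ p v) := by
  classical
  -- the Beltrami coefficient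
  have hGpos : ∀ p, 0 < G p := fun p => by
    nlinarith [posE p, posD p, sq_nonneg (F p)]
  set d : R2 → ℝ := fun p => Real.sqrt (E p * G p - F p ^ 2) with hd
  have hdpos : ∀ p, 0 < d p := fun p => Real.sqrt_pos.mpr (by linarith [posD p])
  have hdsq : ∀ p, d p ^ 2 = E p * G p - F p ^ 2 := fun p =>
    Real.sq_sqrt (by linarith [posD p])
  set den : R2 → ℝ := fun p => E p + G p + 2 * d p with hden
  have hdenpos : ∀ p, 0 < den p := fun p => by
    simp only [hden]; linarith [posE p, hGpos p, hdpos p]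
  have hdc : ContDiff ℝ ∞ d :=
    ((hE.mul hG).sub (hF.pow 2)).sqrt fun p => by
      have := posD p
      exact ne_of_gt (by linarith)
  have hdenc : ContDiff ℝ ∞ den := (hE.add hG).add (contDiff_const.mul hdc)
  set μ : R2 → ℂ := fun p =>
    (((E p - G p) / den p : ℝ) : ℂ) + ((2 * F p / den p : ℝ) : ℂ) * I with hμ
  have hμc : ContDiff ℝ ∞ μ :=
    (Complex.ofRealCLM.contDiff.comp ((hE.sub hG).div hdenc fun p => (hdenpos p).ne')).add
      ((Complex.ofRealCLM.contDiff.comp ((contDiff_const.mul hF).div hdenc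
        fun p => (hdenpos p).ne')).mul contDiff_const)
  have hdper : Periodic2 (1, 0) (0, 1) den := by
    constructor <;> intro p <;> simp only [hden, hd]
    · rw [pE.1, pF.1, pG.1]
    · rw [pE.2, pF.2, pG.2]
  have hμp : Periodic2 (1, 0) (0, 1) μ := by
    constructor <;> intro p <;> simp only [hμ]
    · rw [pE.1, pF.1, pG.1, hdper.1]
    · rw [pE.2, pF.2, pG.2, hdper.2]
  have hμsq : ∀ p, ‖μ p‖ ^ 2 = (E p + G p - 2 * d p) / den p := fun p => by
    rw [← Complex.normSq_eq_norm_sq, hμ, Complex.normSq_add_mul_I, div_pow, div_pow, ← add_div,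
      div_eq_div_iff (pow_ne_zero 2 (hdenpos p).ne') (hdenpos p).ne']
    simp only [hden]
    linear_combination (E p + G p + 2 * d p) * 4 * hdsq p
  have hμlt : ∀ p, ‖μ p‖ < 1 := fun p => by
    have : ‖μ p‖ ^ 2 < 1 := by
      rw [hμsq, div_lt_one (hdenpos p)]
      simp only [hden]; linarith [hdpos p]
    nlinarith [norm_nonneg (μ p)]
  -- the Beltrami equation
  set μC : C(Four.T2, ℂ) := Four.liftC hμc.continuous hμp with hμC
  obtain ⟨t₀, -, ht₀⟩ := isCompact_univ.exists_isMaxOn (Set.univ_nonempty (α := Four.T2))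
    (continuous_norm.comp μC.continuous).continuousOn
  set κ : ℝ := ‖μC t₀‖ with hκ
  have hκ1 : κ < 1 := hμlt (Four.rep t₀)
  have hκle : ∀ t, ‖μC t‖ ≤ κ := fun t => ht₀ (Set.mem_univ t)
  set e : Freq → ℂ := Four.fcoef μ with he
  have her : Rapid e := Four.rapid_fcoef hμc hμp
  have hser : ser e = μ := by
    rw [← four_fser]; exact Four.fser_fcoef hμc.continuous hμp her.summable_norm
  obtain ⟨c, f, Ω, hc, hfs, hΩs, hΩp, hfp, hfd, hΩ0⟩ :=
    exists_beltrami meanPrinciple her (norm_nonneg _) hκ1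
      (fun p => by
        rw [hser]
        have := hκle (Four.proj p)
        rwa [show μC (Four.proj p) = μ p from Four.liftT_proj hμp p] at this)
      (fun S T v => hop_of_bound μC hκle S T v)
  rw [hser] at hfd
  -- the plane map
  set φ : R2 → R2 := fun p => equivRealProdCLM (f p) with hφ
  have hφs : ContDiff ℝ ∞ φ := equivRealProdCLM.contDiff.comp hfs
  have hφd : ∀ p, HasFDerivAt φ
      ((equivRealProdCLM : ℂ →L[ℝ] ℝ × ℝ).comp (dzL (Ω p) (μ p * Ω p))) p := fun p =>
    (equivRealProdCLM : ℂ →L[ℝ] ℝ × ℝ).hasFDerivAt.comp p (hfd p)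
  have hφL : ∀ p, ∃ L : R2 ≃L[ℝ] R2, HasFDerivAt φ (L : R2 →L[ℝ] R2) p := fun p => by
    obtain ⟨L, hL⟩ := exists_equiv_dzL (a := Ω p) (b := μ p * Ω p) (by
      rw [norm_mul]
      exact mul_lt_of_lt_one_left (norm_pos_iff.mpr (hΩ0 p)) (hμlt p))
    exact ⟨L, (hφd p).congr_fderiv (ContinuousLinearMap.ext fun v => (hL v).symm)⟩
  obtain ⟨T, hT⟩ := exists_equiv_dzL (a := 1) (b := c) (by rwa [norm_one])
  have hper : ∀ p (m n : ℤ), φ (p + ((m : ℝ), (n : ℝ))) = φ p + T ((m : ℝ), (n : ℝ)) :=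
    fun p m n => by simp only [hφ, hfp, map_add, hT]
  have hgp : Periodic2 (1, 0) (0, 1) (fun p => f p - dzL 1 c p) :=
    periodic2_of_int fun p m n => by simp only [hfp, map_add]; ring
  obtain ⟨C, hC⟩ := Four.bdd_of_periodic
    (hfs.continuous.sub (dzL 1 c).continuous) hgp
  have hbij : Function.Bijective φ :=
    bijective_of_near_linear hφs hφL T (C := ‖(equivRealProdCLM : ℂ →L[ℝ] ℝ × ℝ)‖ * C) fun p => by
      rw [hφ, hT, ← map_sub]
      exact ((equivRealProdCLM : ℂ →L[ℝ] ℝ × ℝ).le_opNorm _).trans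
        (mul_le_mul_of_nonneg_left (hC p) (norm_nonneg _))
  have hlh : IsLocalHomeomorph φ := fun p => by
    obtain ⟨L, hL⟩ := hφL p
    exact ⟨hφs.contDiffAt.toOpenPartialHomeomorph φ hL (by simp),
      hφs.contDiffAt.mem_toOpenPartialHomeomorph_source hL (by simp),
      (hφs.contDiffAt.toOpenPartialHomeomorph_coe hL (by simp)).symm⟩
  let Φ : R2 ≃ R2 := Equiv.ofBijective φ hbij
  let Ψ : R2 ≃ₜ R2 := Equiv.toHomeomorphOfContinuousOpen Φ hφs.continuous hlh.isOpenMap
  choose L hL using hφL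
  refine ⟨Φ, T (1, 0), T (0, 1), fun p => den p / 4 / ‖Ω p‖ ^ 2, hφs,
    Ψ.contDiff_symm (f₀' := L) hL hφs, ?_, fun p => ?_, fun p => ?_, ?_, ?_, ?_, ?_⟩
  · have h1 : T (1, 0) = ((1 + c).re, (1 + c).im) := by
      rw [hT]; simp [dzL_apply, cx]
    have h2 : T (0, 1) = ((I * (1 - c)).re, (I * (1 - c)).im) := by
      rw [hT]; simp [dzL_apply, cx, sub_eq_add_neg]
    have h3 : det2 (T (1, 0)) (T (0, 1)) = 1 - ‖c‖ ^ 2 := by
      rw [h1, h2, ← Complex.normSq_eq_norm_sq, Complex.normSq_apply]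
      simp [det2]; ring
    rw [h3]
    exact ne_of_gt (by nlinarith [norm_nonneg c])
  · show φ (p + (1, 0)) = φ p + T (1, 0)
    have := hper p 1 0
    simpa using this
  · show φ (p + (0, 1)) = φ p + T (0, 1)
    have := hper p 0 1
    simpa using this
  · exact (hdenc.div_const 4).div (hΩs.norm_sq ℝ)
      fun p => pow_ne_zero 2 (norm_ne_zero_iff.mpr (hΩ0 p))
  · refine ⟨fun p => ?_, fun p => ?_⟩
    · have h := hΩp p 1 0
      simp only [Int.cast_one, Int.cast_zero] at h
      show den (p + (1, 0)) / 4 / ‖Ω (p + (1, 0))‖ ^ 2 = den p / 4 / ‖Ω p‖ ^ 2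
      rw [h, hdper.1]
    · have h := hΩp p 0 1
      simp only [Int.cast_one, Int.cast_zero] at h
      show den (p + (0, 1)) / 4 / ‖Ω (p + (0, 1))‖ ^ 2 = den p / 4 / ‖Ω p‖ ^ 2
      rw [h, hdper.2]
  · intro p
    have := hdenpos p
    have := norm_pos_iff.mpr (hΩ0 p)
    positivity
  · intro p v
    have hfd' : fderiv ℝ (⇑Φ) p v = equivRealProdCLM (dzL (Ω p) (μ p * Ω p) v) := by
      show fderiv ℝ φ p v = _
      rw [(hφd p).fderiv]; rfl
    rw [hfd', sq2_equiv, dzL_apply,
      show Ω p * cx v + μ p * Ω p * conj (cx v) = Ω p * (cx v + μ p * conj (cx v)) by ring,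
      norm_mul, mul_pow, ← mul_assoc,
      div_mul_cancel₀ _ (pow_ne_zero 2 (norm_ne_zero_iff.mpr (hΩ0 p))),
      ← Complex.normSq_eq_norm_sq, Complex.normSq_apply]
    have hne := (hdenpos p).ne'
    simp [cx, hμ]
    field_simp
    simp only [hden]
    linear_combination -(4 * (v.1 ^ 2 + v.2 ^ 2)) * hdsq p

end Vale.Agent.P205.Unif
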